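import Mathlib

/-!
# P248: gauges, polars and exponential integrals over open orthants
-/

open MeasureTheory Set Filter Topology Real
open scoped Pointwise ENNReal Nat

namespace Vale.Agent.P248

variable {n : ℕ}

/-- The standard pairing. -/
noncomputable def dot (x y : Fin n → ℝ) : ℝ := ∑ i, x i * y i

lemma dot_comm (x y : Fin n → ℝ) : dot x y = dot y x :=
  Finset.sum_congr rfl fun i _ => mul_comm _ _

lemma dot_add (x y z : Fin n → ℝ) : dot (x + y) z = dot x z + dot y z := by
  simp [dot, add_mul, Finset.sum_add_distrib]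

lemma dot_smul (r : ℝ) (x z : Fin n → ℝ) : dot (r • x) z = r * dot x z := by
  simp [dot, Finset.mul_sum, mul_assoc]

lemma dot_smul_right (r : ℝ) (x z : Fin n → ℝ) : dot x (r • z) = r * dot x z := by
  rw [dot_comm, dot_smul, dot_comm]

lemma continuous_dot_left (z : Fin n → ℝ) : Continuous fun x => dot x z := by
  unfold dot; fun_prop

lemma continuous_dot_right (z : Fin n → ℝ) : Continuous fun x => dot z x := by
  unfold dot; fun_prop

/-- The polar set. -/
def polar (K : Set (Fin n → ℝ)) : Set (Fin n → ℝ) := {y | ∀ x ∈ K, ∑ i, x i * y i ≤ 1}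

lemma mem_polar {K : Set (Fin n → ℝ)} {y : Fin n → ℝ} : y ∈ polar K ↔ ∀ x ∈ K, dot x y ≤ 1 :=
  Iff.rfl

/-- A convex body with the origin inside. -/
structure Good (K : Set (Fin n → ℝ)) : Prop where
  cpt : IsCompact K
  conv : Convex ℝ K
  int : (0 : Fin n → ℝ) ∈ interior K

namespace Good

variable {K : Set (Fin n → ℝ)} (hK : Good K)
include hK

lemma zero_mem : (0 : Fin n → ℝ) ∈ K := interior_subset hK.int

lemma absorbs : Absorbent ℝ K := absorbent_nhds_zero (mem_interior_iff_mem_nhds.1 hK.int)

lemma cont : Continuous (gauge K) := continuous_gauge hK.conv (mem_interior_iff_mem_nhds.1 hK.int)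

lemma exists_lower : ∃ c : ℝ, 0 < c ∧ ∀ x, c * ‖x‖ ≤ gauge K x := by
  obtain ⟨R, hR, hsub⟩ := hK.cpt.isBounded.subset_closedBall_lt 0 (0 : Fin n → ℝ)
  refine ⟨R⁻¹, inv_pos.2 hR, fun x => ?_⟩
  have := le_gauge_of_subset_closedBall hK.absorbs hR.le hsub (x := x)
  rwa [div_eq_inv_mul] at this

lemma level {r : ℝ} (hr : 0 < r) : {x | gauge K x ≤ r} = r • K := by
  ext x
  rw [mem_smul_set_iff_inv_smul_mem₀ hr.ne', mem_ofPred_eq]
  conv_rhs => rw [← hK.cpt.isClosed.closure_eq]
  rw [← gauge_le_one_iff_mem_closure hK.conv (mem_interior_iff_mem_nhds.1 hK.int),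
    gauge_smul_of_nonneg (inv_nonneg.2 hr.le), smul_eq_mul, inv_mul_le_one₀ hr]

lemma smul {r : ℝ} (hr : 0 < r) : Good (r • K) where
  cpt := hK.cpt.smul r
  conv := hK.conv.smul r
  int := by
    rw [interior_smul₀ hr.ne']
    exact ⟨0, hK.int, smul_zero r⟩

lemma gauge_smul_body {r : ℝ} (hr : 0 < r) (x : Fin n → ℝ) :
    gauge (r • K) x = r⁻¹ * gauge K x := by
  rw [gauge_smul_left_of_nonneg hr.le, Pi.smul_apply, smul_eq_mul]

omit hK in
lemma bound_of_le {A : Set (Fin n → ℝ)} (hA : Absorbent ℝ A) {f : (Fin n → ℝ) → ℝ}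
    (hf : ∀ (r : ℝ) x, f (r • x) = r * f x) {M : ℝ} (hM : 0 ≤ M) (h : ∀ z ∈ A, f z ≤ M)
    (x : Fin n → ℝ) : f x ≤ M * gauge A x := by
  refine le_of_forall_pos_le_add fun e he => ?_
  obtain ⟨b, hb0, hb, z, hz, rfl⟩ :=
    exists_lt_of_gauge_lt hA (lt_add_of_pos_right (gauge A x) (div_pos he (by linarith : (0:ℝ) < M + 1)))
  show f (b • z) ≤ _
  rw [hf]
  calc b * f z ≤ b * M := mul_le_mul_of_nonneg_left (h z hz) hb0.le
    _ ≤ (gauge A (b • z) + e / (M + 1)) * M := mul_le_mul_of_nonneg_right hb.le hM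
    _ ≤ M * gauge A (b • z) + e := by
        have : e / (M + 1) * M ≤ e := by
          rw [div_mul_eq_mul_div, div_le_iff₀ (by linarith : (0:ℝ) < M + 1)]; nlinarith
        linarith

lemma good_polar : Good (polar K) where
  cpt := by
    refine Metric.isCompact_of_isClosed_isBounded ?_ ?_
    · rw [show polar K = ⋂ x ∈ K, {y | dot x y ≤ 1} by ext y; simp [mem_polar]]
      exact isClosed_biInter fun x _ => isClosed_le (continuous_dot_right x) continuous_const
    · obtain ⟨r, hr, hball⟩ :=
        Metric.mem_nhds_iff.1 (mem_interior_iff_mem_nhds.1 hK.int)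
      refine (Metric.isBounded_closedBall (x := (0 : Fin n → ℝ)) (r := 2 / r)).subset fun y hy => ?_
      rw [mem_closedBall_zero_iff, pi_norm_le_iff_of_nonneg (by positivity)]
      intro i
      have key : ∀ s : ℝ, |s| = r / 2 → s * y i ≤ 1 := fun s hs => by
        have := hy (Pi.single i s) (hball (by
          rw [Metric.mem_ball, dist_zero_right, Pi.norm_single, Real.norm_eq_abs, hs]; linarith))
        simpa [Pi.single_apply] using this
      have h1 := key (r / 2) (abs_of_pos (by linarith))
      have h2 := key (-(r / 2)) (by rw [abs_neg, abs_of_pos (by linarith)])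
      rw [Real.norm_eq_abs, le_div_iff₀ hr]
      rcases abs_cases (y i) with ⟨e, _⟩ | ⟨e, _⟩ <;> rw [e] <;> linarith
  conv := by
    intro y hy z hz a b ha hb hab x hx
    have h1 := hy x hx
    have h2 := hz x hx
    calc ∑ i, x i * (a • y + b • z) i = a * ∑ i, x i * y i + b * ∑ i, x i * z i := by
          simp [Finset.mul_sum, ← Finset.sum_add_distrib]
          exact Finset.sum_congr rfl fun i _ => by ring
      _ ≤ a * 1 + b * 1 := by gcongr
      _ = 1 := by linarith
  int := by
    obtain ⟨R, hR, hsub⟩ := hK.cpt.isBounded.subset_closedBall_lt 0 (0 : Fin n → ℝ)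
    rw [mem_interior_iff_mem_nhds, Metric.mem_nhds_iff]
    refine ⟨1 / ((n + 1) * R), by positivity, fun y hy x hx => ?_⟩
    rw [Metric.mem_ball, dist_zero_right] at hy
    have hx' := mem_closedBall_zero_iff.1 (hsub hx)
    calc ∑ i, x i * y i ≤ ∑ _i : Fin n, R * (1 / ((n + 1) * R)) := Finset.sum_le_sum fun i _ => by
          refine (le_abs_self _).trans ?_
          rw [abs_mul]
          exact mul_le_mul ((norm_le_pi_norm x i).trans hx') ((norm_le_pi_norm y i).trans hy.le)
            (abs_nonneg _) hR.le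
      _ ≤ 1 := by
          rw [Finset.sum_const, Finset.card_univ, Fintype.card_fin, nsmul_eq_mul]
          field_simp
          linarith

lemma dot_le_of_mem_polar {y : Fin n → ℝ} (hy : y ∈ polar K) (x : Fin n → ℝ) :
    dot x y ≤ gauge K x := by
  simpa using bound_of_le hK.absorbs (f := fun x => dot x y) (fun r x => dot_smul r x y)
    zero_le_one hy x

lemma dot_le_of_mem {x : Fin n → ℝ} (hx : x ∈ K) (y : Fin n → ℝ) :
    dot x y ≤ gauge (polar K) y := by
  simpa using bound_of_le hK.good_polar.absorbs (f := fun y => dot x y)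
    (fun r y => dot_smul_right r x y) zero_le_one (fun z hz => hz x hx) y

omit hK in
lemma gauge_polar_le {y : Fin n → ℝ} {M : ℝ} (hM : 0 ≤ M) (h : ∀ x ∈ K, dot x y ≤ M) :
    gauge (polar K) y ≤ M := by
  refine le_of_forall_pos_le_add fun e he => ?_
  refine gauge_le_of_mem (by linarith) ?_
  rw [mem_smul_set_iff_inv_smul_mem₀ (by linarith : M + e ≠ 0)]
  intro x hx
  show dot x _ ≤ 1
  rw [dot_smul_right, inv_mul_le_one₀ (by linarith)]
  linarith [h x hx]

lemma exists_attain (y : Fin n → ℝ) : ∃ x ∈ K, dot x y = gauge (polar K) y := by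
  obtain ⟨x, hx, hmax⟩ := hK.cpt.exists_isMaxOn ⟨0, hK.zero_mem⟩
    (continuous_dot_left y).continuousOn
  refine ⟨x, hx, le_antisymm (hK.dot_le_of_mem hx y) (gauge_polar_le ?_ fun z hz => hmax hz)⟩
  have := hmax hK.zero_mem
  simpa [dot] using this

/-- Hahn–Banach: a functional on a coordinate subspace extends below a multiple of the gauge. -/
lemma exists_extension (f : (Fin n → ℝ) →ₗ.[ℝ] ℝ) {M : ℝ} (hM : 0 ≤ M)
    (hf : ∀ x : f.domain, f x ≤ M * gauge K x) :
    ∃ y, (∀ x : f.domain, dot x y = f x) ∧ ∀ x, dot x y ≤ M * gauge K x := by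
  obtain ⟨g, hg, hgle⟩ := exists_extension_of_le_sublinear f (fun x => M * gauge K x)
    (fun c hc x => by
      show M * gauge K (c • x) = _
      rw [gauge_smul_of_nonneg hc.le, smul_eq_mul]; ring)
    (fun x z => by
      show M * gauge K (x + z) ≤ _
      rw [← mul_add]
      exact mul_le_mul_of_nonneg_left (gauge_add_le hK.conv hK.absorbs x z) hM) hf
  have hg' : ∀ x, dot x (fun i => g (Pi.single i 1)) = g x := fun x => by
    conv_rhs => rw [pi_eq_sum_univ' x, map_sum]
    refine Finset.sum_congr rfl fun i _ => ?_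
    rw [map_smul, smul_eq_mul]
  exact ⟨_, fun x => (hg' x).trans (hg x), fun x => (hg' x).trans_le (hgle x)⟩

lemma exists_polar_attain (x : Fin n → ℝ) : ∃ y ∈ polar K, dot x y = gauge K x := by
  rcases eq_or_ne x 0 with rfl | hx
  · exact ⟨0, hK.good_polar.zero_mem, by simp [dot, gauge_zero]⟩
  obtain ⟨y, hy1, hy2⟩ := hK.exists_extension
    (LinearPMap.mkSpanSingleton x (gauge K x) hx) (M := 1) zero_le_one (by
      rintro ⟨z, hz⟩
      obtain ⟨r, rfl⟩ := Submodule.mem_span_singleton.1 hz
      erw [LinearPMap.mkSpanSingleton'_apply]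
      simp only [one_mul, smul_eq_mul, RingHom.id_apply]
      rcases le_total 0 r with h | h
      · rw [gauge_smul_of_nonneg h, smul_eq_mul]
      · exact le_trans (mul_nonpos_of_nonpos_of_nonneg h (gauge_nonneg _)) (gauge_nonneg _))
  refine ⟨y, fun z hz => (hy2 z).trans (by simpa using gauge_le_one_of_mem hz), ?_⟩
  have := hy1 ⟨x, Submodule.mem_span_singleton_self x⟩
  rwa [LinearPMap.mkSpanSingleton_apply] at this

end Good

/-- The open orthant with the given signs. -/
def orth (s : Fin n → Bool) : Set (Fin n → ℝ) := {x | ∀ i, if s i then 0 < x i else x i < 0}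

lemma measurableSet_orth (s : Fin n → Bool) : MeasurableSet (orth s) := by
  rw [show orth s = ⋂ i, {x : Fin n → ℝ | if s i then 0 < x i else x i < 0} by ext; simp [orth]]
  refine MeasurableSet.iInter fun i => ?_
  rcases s i <;> simp only [Bool.false_eq_true, if_false, if_true]
  · exact measurableSet_lt (measurable_pi_apply i) measurable_const
  · exact measurableSet_lt measurable_const (measurable_pi_apply i)

lemma smul_mem_orth {s : Fin n → Bool} {r : ℝ} (hr : 0 < r) {x : Fin n → ℝ} :
    r • x ∈ orth s ↔ x ∈ orth s := by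
  refine forall_congr' fun i => ?_
  rcases s i <;> simp [mul_neg_iff, hr, hr.not_gt]

/-- Every point off the coordinate hyperplanes lies in exactly one open orthant. -/
lemma sum_orth {f : (Fin n → ℝ) → ℝ} (hf : Integrable f) :
    ∫ x, f x = ∑ s : Fin n → Bool, ∫ x in orth s, f x := by
  have hne : ∀ᵐ x : Fin n → ℝ, ∀ i, x i ≠ 0 := by
    rw [ae_all_iff]
    intro i
    rw [ae_iff]
    simpa [volume_pi] using Measure.pi_hyperplane (fun _ : Fin n => (volume : Measure ℝ)) i 0
  simp_rw [← integral_indicator (measurableSet_orth _)]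
  rw [← integral_finsetSum _ fun s _ => hf.indicator (measurableSet_orth s)]
  refine integral_congr_ae ?_
  filter_upwards [hne] with x hx
  rw [Finset.sum_eq_single fun i => decide (0 < x i)]
  · rw [indicator_of_mem]
    intro i
    rcases lt_or_gt_of_ne (hx i) with h | h <;> simp [h, h.not_gt]
  · intro s _ hs
    refine indicator_of_notMem (fun h => hs (funext fun i => ?_)) _
    have := h i
    rcases hsi : s i <;> simp only [hsi, Bool.false_eq_true, if_false, if_true] at this
    · simp [this.not_gt]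
    · simp [this]
  · simp

lemma mom (k : ℕ) :
    ∫⁻ r in Ioi (0 : ℝ), ENNReal.ofReal (exp (-r) * r ^ k) = ENNReal.ofReal (k ! : ℝ) := by
  have h1 := Real.GammaIntegral_convergent (s := k + 1) (by positivity)
  have h2 := Real.Gamma_eq_integral (s := k + 1) (by positivity)
  simp only [add_sub_cancel_right, Real.rpow_natCast] at h1 h2
  rw [Real.Gamma_nat_eq_factorial] at h2
  rw [← ofReal_integral_eq_lintegral_ofReal h1, ← h2]
  exact (ae_restrict_iff' measurableSet_Ioi).2 (Eventually.of_forall fun r hr =>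
    mul_nonneg (exp_pos _).le (pow_nonneg (le_of_lt hr) _))

lemma layer {C : Set (Fin n → ℝ)} (hC : MeasurableSet C) {h : (Fin n → ℝ) → ℝ} (hh : Measurable h) :
    ∫⁻ x in C, ENNReal.ofReal (exp (-h x)) =
      ∫⁻ r : ℝ, ENNReal.ofReal (exp (-r)) * volume ({x | h x ≤ r} ∩ C) := by
  have hS : MeasurableSet {p : (Fin n → ℝ) × ℝ | h p.1 ≤ p.2} :=
    measurableSet_le (hh.comp measurable_fst) measurable_snd
  have h1 : ∀ a : ℝ, ENNReal.ofReal (exp (-a)) =
      ∫⁻ r, (Ici a).indicator (fun r => ENNReal.ofReal (exp (-r))) r := by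
    intro a
    rw [lintegral_indicator measurableSet_Ici, setLIntegral_congr Ioi_ae_eq_Ici.symm,
      ← ofReal_integral_eq_lintegral_ofReal, integral_exp_neg_Ioi]
    · have := exp_neg_integrableOn_Ioi a one_pos
      simp only [neg_mul, one_mul] at this
      exact this
    · exact Eventually.of_forall fun r => (exp_pos _).le
  calc ∫⁻ x in C, ENNReal.ofReal (exp (-h x))
      = ∫⁻ x in C, ∫⁻ r, {p : (Fin n → ℝ) × ℝ | h p.1 ≤ p.2}.indicator
          (fun p => ENNReal.ofReal (exp (-p.2))) (x, r) := by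
        refine lintegral_congr fun x => ?_
        rw [h1]; refine lintegral_congr fun r => ?_
        by_cases hr : h x ≤ r <;> simp [indicator, hr]
    _ = ∫⁻ r, ∫⁻ x in C, {p : (Fin n → ℝ) × ℝ | h p.1 ≤ p.2}.indicator
          (fun p => ENNReal.ofReal (exp (-p.2))) (x, r) :=
        lintegral_lintegral_swap ((((measurable_snd.neg).exp).ennreal_ofReal).indicator hS).aemeasurable
    _ = _ := by
        refine lintegral_congr fun r => ?_
        have hm : MeasurableSet {x : Fin n → ℝ | h x ≤ r} := measurableSet_le hh measurable_const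
        rw [← Measure.restrict_apply hm, ← lintegral_indicator_const hm]
        refine lintegral_congr fun x => ?_
        by_cases hr : h x ≤ r <;> simp [indicator, hr]

/-- A set stable under positive dilations. -/
def IsDilStable (C : Set (Fin n → ℝ)) : Prop := ∀ ⦃r : ℝ⦄, 0 < r → ∀ x, r • x ∈ C ↔ x ∈ C

lemma Good.lintegral_cone {K : Set (Fin n → ℝ)} (hK : Good K) {C : Set (Fin n → ℝ)}
    (hC : MeasurableSet C) (hs : IsDilStable C) :
    ∫⁻ x in C, ENNReal.ofReal (exp (-gauge K x)) =
      ENNReal.ofReal (n ! * volume.real (K ∩ C)) := by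
  have hfin : volume (K ∩ C) ≠ ⊤ := measure_ne_top_of_subset inter_subset_left hK.cpt.measure_lt_top.ne
  rw [layer hC hK.cont.measurable, ← lintegral_add_compl _ (measurableSet_Ioi (a := (0 : ℝ))),
    compl_Ioi]
  have h0 : ∫⁻ r in Iic (0 : ℝ),
      ENNReal.ofReal (exp (-r)) * volume ({x | gauge K x ≤ r} ∩ C) = 0 := by
    rw [setLIntegral_congr Iio_ae_eq_Iic.symm,
      setLIntegral_congr_fun measurableSet_Iio (g := fun _ => (0 : ℝ≥0∞)) fun r hr => ?_]
    · simp
    have : {x | gauge K x ≤ r} = ∅ :=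
      eq_empty_iff_forall_notMem.2 fun x hx => by
        have := gauge_nonneg (s := K) x
        simp only [mem_ofPred_eq, mem_Iio] at hx hr
        linarith
    simp [this]
  rw [h0, add_zero, setLIntegral_congr_fun measurableSet_Ioi
    (g := fun r => ENNReal.ofReal (exp (-r) * r ^ n) * volume (K ∩ C)) fun r hr => ?_,
    lintegral_mul_const' _ _ hfin, mom, ENNReal.ofReal_mul (by positivity), measureReal_def,
    ENNReal.ofReal_toReal hfin]
  have hr' : (0 : ℝ) < r := hr
  have e : {x | gauge K x ≤ r} ∩ C = r • (K ∩ C) := by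
    rw [hK.level hr']
    ext x
    rw [mem_inter_iff, mem_smul_set_iff_inv_smul_mem₀ hr'.ne',
      mem_smul_set_iff_inv_smul_mem₀ hr'.ne', mem_inter_iff, hs (inv_pos.2 hr')]
  rw [e, Measure.addHaar_smul_of_nonneg _ hr'.le, Module.finrank_pi, Fintype.card_fin,
    ← mul_assoc, ← ENNReal.ofReal_mul (exp_pos _).le]

lemma Good.integrableOn_cone {K : Set (Fin n → ℝ)} (hK : Good K) :
    Integrable fun x => exp (-gauge K x) := by
  refine ⟨hK.cont.neg.rexp.aestronglyMeasurable, ?_⟩
  rw [hasFiniteIntegral_iff_ofReal (Eventually.of_forall fun x => (exp_pos _).le),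
    ← setLIntegral_univ, hK.lintegral_cone MeasurableSet.univ fun r _ x => by simp]
  exact ENNReal.ofReal_lt_top

lemma Good.integral_cone {K : Set (Fin n → ℝ)} (hK : Good K) {C : Set (Fin n → ℝ)}
    (hC : MeasurableSet C) (hs : IsDilStable C) :
    ∫ x in C, exp (-gauge K x) = n ! * volume.real (K ∩ C) := by
  rw [integral_eq_lintegral_of_nonneg_ae (f := fun x => exp (-gauge K x))
    (Eventually.of_forall fun x => (exp_pos _).le) hK.cont.neg.rexp.aestronglyMeasurable,
    hK.lintegral_cone hC hs, ENNReal.toReal_ofReal (mul_nonneg (Nat.cast_nonneg _) measureReal_nonneg)]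

lemma Good.integral_univ {K : Set (Fin n → ℝ)} (hK : Good K) :
    ∫ x, exp (-gauge K x) = n ! * volume.real K := by
  rw [← setIntegral_univ, hK.integral_cone MeasurableSet.univ fun r _ x => by simp, inter_univ]

lemma Good.sum_orth_volume {K : Set (Fin n → ℝ)} (hK : Good K) :
    volume.real K = ∑ s : Fin n → Bool, volume.real (K ∩ orth s) := by
  have := sum_orth hK.integrableOn_cone
  rw [hK.integral_univ, Finset.sum_congr rfl fun s _ =>
    hK.integral_cone (measurableSet_orth s) (fun r hr x => smul_mem_orth hr), ← Finset.mul_sum] at this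
  exact mul_left_cancel₀ (by positivity) this

end Vale.Agent.P248
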