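import Vale.Agent.P248.Poly

/-!
# P248: the Mahler inequality from the Saint-Raymond criterion in every coordinate section
-/

open MeasureTheory Set Filter Topology Real Function
open scoped Pointwise Nat

namespace Vale.Agent.P248

variable {n m k : ℕ}

/-- The coordinate section of `K` along the injection `e`. -/
def sec (K : Set (Fin n → ℝ)) (e : Fin m → Fin n) : Set (Fin m → ℝ) :=
  {y | Function.extend e y 0 ∈ K}

lemma mem_sec {K : Set (Fin n → ℝ)} {e : Fin m → Fin n} {y : Fin m → ℝ} :
    y ∈ sec K e ↔ Function.extend e y 0 ∈ K := Iff.rfl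

lemma extend_add {e : Fin m → Fin n} (he : Injective e) (y z : Fin m → ℝ) :
    Function.extend e (y + z) 0 = Function.extend e y 0 + Function.extend e z 0 := by
  funext j
  by_cases h : ∃ i, e i = j
  · obtain ⟨i, rfl⟩ := h; simp [he.extend_apply]
  · simp [extend_apply' _ _ _ h]

lemma extend_smul {e : Fin m → Fin n} (he : Injective e) (r : ℝ) (y : Fin m → ℝ) :
    Function.extend e (r • y) 0 = r • Function.extend e y 0 := by
  funext j
  by_cases h : ∃ i, e i = j
  · obtain ⟨i, rfl⟩ := h; simp [he.extend_apply]
  · simp [extend_apply' _ _ _ h]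

lemma continuous_extend {e : Fin m → Fin n} (he : Injective e) :
    Continuous fun y : Fin m → ℝ => Function.extend e y 0 := by
  refine continuous_pi fun j => ?_
  by_cases h : ∃ i, e i = j
  · obtain ⟨i, rfl⟩ := h; simpa [he.extend_apply] using continuous_apply i
  · simpa [extend_apply' _ _ _ h] using continuous_const

lemma good_sec {K : Set (Fin n → ℝ)} (hK : Good K) {e : Fin m → Fin n} (he : Injective e) :
    Good (sec K e) where
  cpt := by
    refine Metric.isCompact_of_isClosed_isBounded (hK.cpt.isClosed.preimage (continuous_extend he)) ?_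
    obtain ⟨R, hR, hsub⟩ := hK.cpt.isBounded.subset_closedBall_lt 0 (0 : Fin n → ℝ)
    refine (Metric.isBounded_closedBall (x := (0 : Fin m → ℝ)) (r := R)).subset fun y hy => ?_
    rw [mem_closedBall_zero_iff, pi_norm_le_iff_of_nonneg hR.le]
    intro i
    have := (norm_le_pi_norm (Function.extend e y 0) (e i)).trans
      (mem_closedBall_zero_iff.1 (hsub (show Function.extend e y 0 ∈ K from hy)))
    rwa [he.extend_apply] at this
  conv := by
    intro y hy z hz a b ha hb hab
    rw [mem_sec, extend_add he, extend_smul he, extend_smul he]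
    exact hK.conv hy hz ha hb hab
  int := by
    rw [mem_interior_iff_mem_nhds]
    refine (continuous_extend he).continuousAt.preimage_mem_nhds (?_ : K ∈ 𝓝 _)
    have h0 : Function.extend e (0 : Fin m → ℝ) 0 = 0 := by
      simpa using extend_smul he 0 (0 : Fin m → ℝ)
    rw [h0]
    exact mem_interior_iff_mem_nhds.1 hK.int

lemma sec_sec (K : Set (Fin n → ℝ)) {e : Fin m → Fin n} (he : Injective e) {e' : Fin k → Fin m}
    (he' : Injective e') : sec (sec K e) e' = sec K (e ∘ e') := by
  ext y
  rw [mem_sec, mem_sec, mem_sec]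
  have : Function.extend e (Function.extend e' y 0) 0 = Function.extend (e ∘ e') y 0 := by
    funext j
    by_cases h : ∃ i, e i = j
    · obtain ⟨i, rfl⟩ := h
      rw [he.extend_apply]
      by_cases h' : ∃ l, e' l = i
      · obtain ⟨l, rfl⟩ := h'
        rw [he'.extend_apply, show e (e' l) = (e ∘ e') l from rfl, (he.comp he').extend_apply]
      · rw [extend_apply' _ _ _ h', extend_apply' (f := e ∘ e') _ _ _ fun ⟨l, hl⟩ => h' ⟨l, he hl⟩]
        rfl
    · rw [extend_apply' _ _ _ h, extend_apply' (f := e ∘ e') _ _ _ fun ⟨l, hl⟩ => h ⟨e' l, hl⟩]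
  rw [this]

lemma sec_id (K : Set (Fin n → ℝ)) : sec K id = K := by
  ext y; rw [mem_sec, Function.injective_id.factorsThrough y |>.extend_apply 0 |> fun h =>
    (funext fun i => h i : Function.extend id y 0 = y)]

lemma ins_zero_eq_extend (i : Fin (n + 1)) (y : Fin n → ℝ) :
    ins i 0 y = Function.extend i.succAbove y 0 := by
  funext j
  rcases Fin.eq_self_or_eq_succAbove i j with rfl | ⟨l, rfl⟩
  · rw [ins_same, extend_apply']
    · rfl
    · exact fun ⟨l, hl⟩ => Fin.succAbove_ne j l hl
  · rw [ins_succAbove, Fin.succAbove_right_injective.extend_apply]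

lemma gauge_sec (K : Set (Fin n → ℝ)) {e : Fin m → Fin n} (he : Injective e) (y : Fin m → ℝ) :
    gauge (sec K e) y = gauge K (Function.extend e y 0) := by
  rw [gauge_def, gauge_def]
  congr 1
  ext r
  simp only [mem_ofPred_eq]
  refine and_congr_right fun (hr : 0 < r) => ?_
  rw [mem_smul_set_iff_inv_smul_mem₀ hr.ne', mem_smul_set_iff_inv_smul_mem₀ hr.ne', mem_sec,
    extend_smul he]

/-- The Saint-Raymond criterion, with slack `c`, in every coordinate section. -/
def Crit (c : ℝ) (K : Set (Fin n → ℝ)) : Prop :=
  ∀ (m : ℕ) (e : Fin (m + 1) → Fin n), Injective e → ∀ v ∈ sec K e,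
    2 * ∑ i, |v i| * volume.real (sec K (e ∘ i.succAbove)) ≤ c * (m + 1) * volume.real (sec K e)

/-- All orthant pieces of every coordinate section have equal volume. -/
def Equi (K : Set (Fin n → ℝ)) : Prop :=
  ∀ (m : ℕ) (e : Fin m → Fin n), Injective e → ∀ s t : Fin m → Bool,
    volume.real (sec K e ∩ orth s) = volume.real (sec K e ∩ orth t)

lemma le_of_scaled {a b : ℝ} (k : ℕ) (h : ∀ l : ℝ, 0 < l → l < 1 → l ^ k * a ≤ b) : a ≤ b := by
  have ht : Tendsto (fun l : ℝ => l ^ k * a) (𝓝[<] 1) (𝓝 (1 ^ k * a)) :=
    (((continuous_pow k).mul continuous_const).tendsto 1).mono_left nhdsWithin_le_nhds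
  rw [one_pow, one_mul] at ht
  refine le_of_tendsto ht ?_
  filter_upwards [Ioo_mem_nhdsLT (zero_lt_one (α := ℝ))] with l hl
  exact h l hl.1 hl.2

theorem step {K : Set (Fin (n + 1) → ℝ)} (hK : Good K) {c : ℝ}
    (hv : ∀ v ∈ K, 2 * ∑ i, |v i| * volume.real (sec K i.succAbove) ≤ c * (n + 1) * volume.real K) :
    4 * n ! * ∑ i : Fin (n + 1),
        volume.real (sec K i.succAbove) * volume.real (polar (sec K i.succAbove)) ≤
      c * (n + 1) * volume.real K * ((n + 1)! * volume.real (polar K)) := by
  refine le_of_scaled (n + 1) fun l hl0 hl1 => ?_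
  obtain ⟨N, V, sel, g, hV, hg, hgle, hglow⟩ := exists_poly hK.good_polar
    (fun y => (hK.exists_attain y).imp fun x ⟨hx, e⟩ => ⟨hx, (dot_comm _ _).trans e⟩)
    (fun y x hx => (dot_comm _ _).trans_le (hK.dot_le_of_mem hx y)) hl0 hl1
  have hint := hg.integrable_exp hK.good_polar hl0 hglow
  have hflux : ∀ i : Fin (n + 1), 2 * (n ! * volume.real (polar (sec K i.succAbove))) ≤
      ∫ x, |V (sel x) i| * exp (-g x) := by
    intro i
    have hKi := good_sec hK (Fin.succAbove_right_injective (p := i))
    rw [← hKi.good_polar.integral_univ]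
    refine hg.two_flux hint i hKi.good_polar.integrableOn_cone fun y => ?_
    set M := gauge (polar (sec K i.succAbove)) y
    let p : (Fin (n + 1) → ℝ) →ₗ[ℝ] ℝ :=
      { toFun := fun x => dot (fun j => x (i.succAbove j)) y
        map_add' := fun x z => dot_add (fun j => x (i.succAbove j)) (fun j => z (i.succAbove j)) y
        map_smul' := fun r x => dot_smul r (fun j => x (i.succAbove j)) y }
    let f : (Fin (n + 1) → ℝ) →ₗ.[ℝ] ℝ :=
      { domain := LinearMap.ker (LinearMap.proj i : (Fin (n + 1) → ℝ) →ₗ[ℝ] ℝ)
        toFun := p.comp (Submodule.subtype _) }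
    have hfM : ∀ x : f.domain, f x ≤ M * gauge K x := by
      rintro ⟨x, hx⟩
      have hx0 : x i = 0 := hx
      have e : Function.extend i.succAbove (fun j => x (i.succAbove j)) 0 = x := by
        rw [← ins_zero_eq_extend, ins, ← hx0]
        exact Fin.insertNth_self_removeNth i x
      have := Good.bound_of_le hKi.absorbs (f := fun z => dot z y) (fun r z => dot_smul r z y)
        (gauge_nonneg _) (fun z hz => hKi.dot_le_of_mem hz y) (fun j => x (i.succAbove j))
      rwa [gauge_sec K Fin.succAbove_right_injective, e] at this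
    obtain ⟨Y, hY1, hY2⟩ := hK.exists_extension f (M := M) (gauge_nonneg _) hfM
    refine ⟨Y i, (hgle _).trans (Good.gauge_polar_le (gauge_nonneg _) fun x hx => ?_)⟩
    have e : ins i (Y i) y = Y := by
      funext j
      rcases Fin.eq_self_or_eq_succAbove i j with rfl | ⟨q, rfl⟩
      · simp
      · have := hY1 ⟨Pi.single (i.succAbove q) 1,
          show (Pi.single (i.succAbove q) 1 : Fin (n + 1) → ℝ) i = 0 from
            Pi.single_eq_of_ne (Fin.succAbove_ne i q).symm 1⟩
        change dot (Pi.single (i.succAbove q) 1) Y =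
          dot (fun j => (Pi.single (i.succAbove q) 1 : Fin (n + 1) → ℝ) (i.succAbove j)) y at this
        simp only [dot, Pi.single_apply, Fin.succAbove_right_injective.eq_iff, ite_mul, one_mul,
          zero_mul, Finset.sum_ite_eq', Finset.mem_univ, if_true] at this
        simpa using this.symm
    rw [e]
    exact (hY2 x).trans (mul_le_of_le_one_right (gauge_nonneg _) (gauge_le_one_of_mem hx))
  have hpt : ∀ x, ∑ i, 2 * volume.real (sec K i.succAbove) * (|V (sel x) i| * exp (-g x)) ≤
      c * (n + 1) * volume.real K * exp (-g x) := fun x => by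
    refine le_trans (le_of_eq ?_) (mul_le_mul_of_nonneg_right (hv _ (hV (sel x))) (exp_pos _).le)
    rw [Finset.mul_sum, Finset.sum_mul]
    exact Finset.sum_congr rfl fun i _ => by ring
  have hi : ∀ i : Fin (n + 1), Integrable fun x =>
      2 * volume.real (sec K i.succAbove) * (|V (sel x) i| * exp (-g x)) := fun i =>
    (hg.integrable_comp hint (f := fun j => |V j i|)).const_mul _
  have h1 := integral_mono (integrable_finsetSum _ fun i _ => hi i) (hint.const_mul _) hpt
  rw [integral_finsetSum _ fun i _ => hi i, integral_const_mul] at h1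
  have hc : 0 ≤ c * (n + 1) * volume.real K :=
    le_trans (by positivity) (hv 0 hK.zero_mem)
  have h2 := hg.integral_le hK.good_polar hl0 hglow MeasurableSet.univ (fun r _ x => by simp)
  rw [setIntegral_univ, inter_univ] at h2
  have h3 := h1.trans (mul_le_mul_of_nonneg_left h2 hc)
  have h4 : 4 * n ! * ∑ i : Fin (n + 1),
        volume.real (sec K i.succAbove) * volume.real (polar (sec K i.succAbove)) ≤
      c * (n + 1) * volume.real K * (l⁻¹ ^ (n + 1) * ((n + 1)! * volume.real (polar K))) := by
    refine le_trans ?_ h3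
    rw [Finset.mul_sum]
    refine Finset.sum_le_sum fun i _ => ?_
    rw [integral_const_mul]
    refine le_trans (le_of_eq ?_) (mul_le_mul_of_nonneg_left (hflux i) (by positivity))
    ring
  calc l ^ (n + 1) * _ ≤ l ^ (n + 1) *
        (c * (n + 1) * volume.real K * (l⁻¹ ^ (n + 1) * ((n + 1)! * volume.real (polar K)))) :=
        mul_le_mul_of_nonneg_left h4 (by positivity)
    _ = _ := by
        rw [inv_pow]
        field_simp

theorem mahler_of_crit {c : ℝ} (hc : 0 ≤ c) : ∀ (n : ℕ) (K : Set (Fin n → ℝ)), Good K → Crit c K →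
    (4 : ℝ) ^ n / n ! ≤ c ^ n * (volume.real K * volume.real (polar K)) := by
  intro n
  induction n with
  | zero =>
    intro K hK _
    have h : ∀ A : Set (Fin 0 → ℝ), A.Nonempty → volume.real A = 1 := fun A hA => by
      rw [Subsingleton.eq_univ_of_nonempty hA, measureReal_def, volume_pi, Measure.pi_univ]
      simp
    rw [h K ⟨0, hK.zero_mem⟩, h _ ⟨0, hK.good_polar.zero_mem⟩]
    simp
  | succ n ih =>
    intro K hK hcrit
    have h0 := hcrit n id injective_id
    simp only [id_comp, sec_id] at h0
    have hs := step hK h0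
    have hi : ∀ i : Fin (n + 1), (4 : ℝ) ^ n / n ! ≤
        c ^ n * (volume.real (sec K i.succAbove) * volume.real (polar (sec K i.succAbove))) :=
      fun i => by
        have hinj := Fin.succAbove_right_injective (p := i)
        refine ih _ (good_sec hK hinj) fun m e he v hv => ?_
        simp only [sec_sec K hinj he, sec_sec K hinj (he.comp Fin.succAbove_right_injective),
          ← comp_assoc] at hv ⊢
        exact hcrit m _ (hinj.comp he) v hv
    have h1 := Finset.sum_le_sum fun i (_ : i ∈ Finset.univ) => hi i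
    rw [Finset.sum_const, Finset.card_univ, Fintype.card_fin, nsmul_eq_mul, ← Finset.mul_sum] at h1
    have h2 := mul_le_mul_of_nonneg_left hs (pow_nonneg hc n)
    have h3 := mul_le_mul_of_nonneg_left h1 (show (0 : ℝ) ≤ 4 * (n ! : ℝ) by positivity)
    rw [Nat.factorial_succ] at h2 ⊢
    push_cast at h2 h3 ⊢
    rw [div_le_iff₀ (by positivity)]
    have h4 : (4 : ℝ) ^ (n + 1) * (n + 1) ≤ c ^ n * (c * (n + 1) * volume.real K *
        ((n + 1) * n ! * volume.real (polar K))) := by
      refine le_trans (le_of_eq ?_) (h3.trans (le_trans (le_of_eq ?_) h2))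
      · field_simp
        ring
      · ring
    have h5 : ((n : ℝ) + 1) * 4 ^ (n + 1) ≤ ((n : ℝ) + 1) *
        (c ^ (n + 1) * (volume.real K * volume.real (polar K)) * ((n + 1) * n !)) := by
      rw [pow_succ c]
      linarith
    exact le_of_mul_le_mul_left h5 (by positivity)

theorem crit_top {K : Set (Fin (n + 1) → ℝ)} (hK : Good K)
    (hK0 : ∀ s t : Fin (n + 1) → Bool, volume.real (K ∩ orth s) = volume.real (K ∩ orth t))
    (hKi : ∀ (i : Fin (n + 1)) (s t : Fin n → Bool),
      volume.real (sec K i.succAbove ∩ orth s) = volume.real (sec K i.succAbove ∩ orth t))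
    {v : Fin (n + 1) → ℝ} (hv : v ∈ K) :
    2 * ∑ i, |v i| * volume.real (sec K i.succAbove) ≤ (n + 1) * volume.real K := by
  refine le_of_scaled (n + 1) fun l hl0 hl1 => ?_
  obtain ⟨N, V, sel, g, hV, hg, hgle, hglow⟩ := exists_poly hK
    hK.exists_polar_attain (fun x y hy => hK.dot_le_of_mem_polar hy x) hl0 hl1
  have hint := hg.integrable_exp hK hl0 hglow
  set s : Fin (n + 1) → Bool := fun i => decide (0 ≤ v i) with hs
  have hi : ∀ i, (n ! : ℝ) * (|v i| * volume.real (sec K i.succAbove)) ≤
      2 ^ n * (v i * ∫ x in orth s, V (sel x) i * exp (-g x)) := by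
    intro i
    have hinj := Fin.succAbove_right_injective (p := i)
    have hG := good_sec hK hinj
    have hsum : volume.real (sec K i.succAbove) =
        2 ^ n * volume.real (sec K i.succAbove ∩ orth fun j => s (i.succAbove j)) := by
      rw [hG.sum_orth_volume, Finset.sum_congr rfl fun t _ => hKi i t fun j => s (i.succAbove j),
        Finset.sum_const, Finset.card_univ, nsmul_eq_mul]
      simp
    have hf := hg.flux hint s i
    have hlow : (n ! : ℝ) * volume.real (sec K i.succAbove ∩ orth fun j => s (i.succAbove j)) ≤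
        ∫ y in orth (fun j => s (i.succAbove j)), exp (-g (ins i 0 y)) := by
      rw [← hG.integral_cone (measurableSet_orth _) fun r hr x => smul_mem_orth hr]
      have hG' := hG.smul (inv_pos.2 hl0)
      have hins : Measurable fun y => exp (-g (ins i 0 y)) := by
        simp only [ins_zero_eq_extend]
        exact (hg.measurable_g.comp (continuous_extend hinj).measurable).neg.exp
      refine setIntegral_mono hG.integrableOn_cone.integrableOn
        (hG'.integrableOn_cone.integrableOn.mono' hins.aestronglyMeasurable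
          (Eventually.of_forall fun y => ?_)) fun y => ?_
      · rw [Real.norm_eq_abs, abs_exp, exp_le_exp, hG.gauge_smul_body (inv_pos.2 hl0), inv_inv,
          gauge_sec K hinj, ← ins_zero_eq_extend]
        linarith [hglow (ins i 0 y)]
      · rw [exp_le_exp, gauge_sec K hinj, ← ins_zero_eq_extend]
        exact neg_le_neg (hgle _)
    have habs : |v i| = v i * (if s i then 1 else -1 : ℝ) := by
      by_cases h : 0 ≤ v i
      · simp [hs, h, abs_of_nonneg]
      · simp [hs, h, abs_of_neg (not_le.1 h)]
    calc (n ! : ℝ) * (|v i| * volume.real (sec K i.succAbove))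
        = 2 ^ n * (|v i| * (n ! * volume.real
            (sec K i.succAbove ∩ orth fun j => s (i.succAbove j)))) := by rw [hsum]; ring
      _ ≤ 2 ^ n * (|v i| * ∫ y in orth (fun j => s (i.succAbove j)), exp (-g (ins i 0 y))) := by
          gcongr
      _ = _ := by
          rw [← hf, habs]
          rcases s i <;> simp
  have hint' : ∀ i, Integrable (fun x => v i * (V (sel x) i * exp (-g x)))
      (volume.restrict (orth s)) := fun i =>
    ((hg.integrable_comp hint (f := fun j => V j i)).const_mul _).integrableOn
  have hsum : ∑ i, v i * ∫ x in orth s, V (sel x) i * exp (-g x) ≤ ∫ x in orth s, exp (-g x) := by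
    simp only [← integral_const_mul]
    rw [← integral_finsetSum _ fun i _ => hint' i]
    refine setIntegral_mono (integrable_finsetSum _ fun i _ => hint' i) hint.integrableOn fun x => ?_
    simp only [← mul_assoc, ← Finset.sum_mul]
    exact mul_le_of_le_one_left (exp_pos _).le (hV (sel x) v hv)
  have h2 := hg.integral_le hK hl0 hglow (measurableSet_orth s) fun r hr x => smul_mem_orth hr
  have hK2 : volume.real K = 2 ^ (n + 1) * volume.real (K ∩ orth s) := by
    rw [hK.sum_orth_volume, Finset.sum_congr rfl fun t _ => hK0 t s,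
      Finset.sum_const, Finset.card_univ, nsmul_eq_mul]
    simp
  have h3 := (mul_le_mul_of_nonneg_left (hsum.trans h2) (show (0 : ℝ) ≤ 2 ^ n by positivity))
  rw [Finset.mul_sum] at h3
  have h4 := (Finset.sum_le_sum fun i (_ : i ∈ Finset.univ) => hi i).trans h3
  rw [← Finset.mul_sum, Nat.factorial_succ, inv_pow] at h4
  push_cast at h4
  rw [hK2]
  have hfac : (0 : ℝ) < n ! := by positivity
  have h5 : ∑ i, |v i| * volume.real (sec K i.succAbove) ≤
      2 ^ n * ((l ^ (n + 1))⁻¹ * (((n : ℝ) + 1) * volume.real (K ∩ orth s))) := by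
    refine le_of_mul_le_mul_left (h4.trans (le_of_eq ?_)) hfac
    ring
  calc l ^ (n + 1) * (2 * ∑ i, |v i| * volume.real (sec K i.succAbove))
      ≤ l ^ (n + 1) * (2 * (2 ^ n * ((l ^ (n + 1))⁻¹ * (((n : ℝ) + 1) * volume.real (K ∩ orth s))))) := by
        gcongr
    _ = _ := by
        field_simp
        ring

theorem crit_of_equi {K : Set (Fin n → ℝ)} (hK : Good K) (h : Equi K) : Crit 1 K := by
  intro m e he v hv
  rw [one_mul]
  have hinj : ∀ i : Fin (m + 1), Injective i.succAbove := fun i => Fin.succAbove_right_injective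
  have := crit_top (good_sec hK he) (h _ e he)
    (fun i s t => by
      rw [sec_sec K he (hinj i)]
      exact h _ _ (he.comp (hinj i)) s t) hv
  simpa only [sec_sec K he (hinj _)] using this

end Vale.Agent.P248
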