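import Vale.Agent.P248.Main

/-!
# P248: quarter turns in coordinate pairs, and linear invariance of the volume product
-/

open MeasureTheory Set Function

namespace Vale.Agent.P248

variable {n m : ℕ}

/-- `rot a b x` replaces `(x a, x b)` by `(-x b, x a)`; for `a = b` it negates coordinate `a`. -/
def rot (a b : Fin n) (x : Fin n → ℝ) : Fin n → ℝ :=
  fun l => if l = a then -x b else if l = b then x a else x l

lemma rot_eq (a b : Fin n) (x : Fin n → ℝ) (l : Fin n) :
    rot a b x l = (if l = a then (-1 : ℝ) else 1) * x (Equiv.swap a b l) := by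
  unfold rot
  rcases eq_or_ne l a with rfl | ha
  · simp
  rcases eq_or_ne l b with rfl | hb
  · simp [ha]
  · simp [ha, hb, Equiv.swap_apply_of_ne_of_ne ha hb]

lemma measurePreserving_rot (a b : Fin n) : MeasurePreserving (rot a b) := by
  have h1 : MeasurePreserving fun (x : Fin n → ℝ) l => x (Equiv.swap a b l) := by
    have := volume_measurePreserving_piCongrLeft (fun _ : Fin n => ℝ) (Equiv.swap a b)
    have e : (MeasurableEquiv.piCongrLeft (fun _ : Fin n => ℝ) (Equiv.swap a b) :
        (Fin n → ℝ) → Fin n → ℝ) = fun x l => x (Equiv.swap a b l) := by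
      funext x l
      have h := MeasurableEquiv.piCongrLeft_apply_apply (Equiv.swap a b)
        (β := fun _ : Fin n => ℝ) x (Equiv.swap a b l)
      rwa [Equiv.swap_apply_self] at h
    rwa [e] at this
  have h2 : MeasurePreserving fun (x : Fin n → ℝ) l => (if l = a then (-1 : ℝ) else 1) * x l := by
    refine volume_preserving_pi (f := fun l (t : ℝ) => (if l = a then (-1 : ℝ) else 1) * t) fun l => ?_
    split
    · simpa only [neg_one_mul] using Measure.measurePreserving_neg (volume : Measure ℝ)
    · simpa only [one_mul, Function.id_def] using MeasurePreserving.id (volume : Measure ℝ)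
  have : rot a b = (fun (x : Fin n → ℝ) l => (if l = a then (-1 : ℝ) else 1) * x l) ∘
      fun x l => x (Equiv.swap a b l) := by
    funext x l
    exact rot_eq a b x l
  rw [this]
  exact h2.comp h1

lemma rot_mem_orth {a b : Fin n} {x : Fin n → ℝ} {s : Fin n → Bool} :
    rot a b x ∈ orth (fun l => if l = a then !(s b) else if l = b then s a else s l) ↔
      x ∈ orth s := by
  simp only [orth, mem_ofPred_eq, rot]
  constructor
  · intro h l
    by_cases hlb : l = b
    · subst hlb
      have := h a
      simp only [if_pos] at this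
      cases hs : s l <;> simp_all
    by_cases hla : l = a
    · subst hla
      have := h b
      simpa [Ne.symm hlb] using this
    simpa [hla, hlb] using h l
  · intro h l
    by_cases hla : l = a
    · subst hla
      have := h b
      cases hs : s b <;> simp_all
    by_cases hlb : l = b
    · subst hlb
      simpa [hla] using h a
    simpa [hla, hlb] using h l

/-- Invariance under the quarter turns and reflections given by the pairing `p`. -/
def TurnInv (p : Fin n → Fin n) (K : Set (Fin n → ℝ)) : Prop :=
  ∀ i, ∀ x ∈ K, rot i (p i) x ∈ K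

lemma rot_rot_self (a : Fin n) (x : Fin n → ℝ) : rot a a (rot a a x) = x := by
  funext l
  rcases eq_or_ne l a with rfl | h <;> simp [rot, *]

lemma rot_rot (a b : Fin n) (h : a ≠ b) (x : Fin n → ℝ) :
    rot a b (rot a b x) = fun l => if l = a ∨ l = b then -x l else x l := by
  funext l
  rcases eq_or_ne l a with rfl | ha
  · simp [rot, h.symm]
  rcases eq_or_ne l b with rfl | hb
  · simp [rot, ha]
  · simp [rot, ha, hb]

lemma rot_four (a b : Fin n) (x : Fin n → ℝ) : rot a b (rot a b (rot a b (rot a b x))) = x := by
  rcases eq_or_ne a b with rfl | h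
  · simp [rot_rot_self]
  · rw [rot_rot a b h, rot_rot a b h]
    funext l
    by_cases hl : l = a ∨ l = b <;> simp [hl]

lemma TurnInv.iff {p : Fin n → Fin n} {K : Set (Fin n → ℝ)} (h : TurnInv p K) (i : Fin n)
    (x : Fin n → ℝ) : rot i (p i) x ∈ K ↔ x ∈ K := by
  refine ⟨fun hx => ?_, h i x⟩
  rw [← rot_four i (p i) x]
  exact h i _ (h i _ (h i _ hx))

lemma TurnInv.sec_step {p : Fin n → Fin n} {K : Set (Fin n → ℝ)} (h : TurnInv p K)
    {e : Fin m → Fin n} (he : Injective e) (j : Fin m) :
    ∃ k, ∀ y, rot j k y ∈ sec K e ↔ y ∈ sec K e := by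
  by_cases hc : ∃ k, e k = p (e j)
  · obtain ⟨k, hk⟩ := hc
    refine ⟨k, fun y => ?_⟩
    rw [mem_sec, mem_sec, ← h.iff (e j) (Function.extend e y 0)]
    suffices Function.extend e (rot j k y) 0 = rot (e j) (p (e j)) (Function.extend e y 0) by
      rw [this]
    rw [← hk]
    funext l
    by_cases hl : ∃ i, e i = l
    · obtain ⟨i, rfl⟩ := hl
      simp [rot, he.extend_apply, he.eq_iff]
    · have h1 : l ≠ e j := fun e' => hl ⟨j, e'.symm⟩
      have h2 : l ≠ e k := fun e' => hl ⟨k, e'.symm⟩
      simp [rot, extend_apply' _ _ _ hl, h1, h2]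
  · have hne : e j ≠ p (e j) := fun e' => hc ⟨j, e'⟩
    refine ⟨j, fun y => ?_⟩
    rw [mem_sec, mem_sec, ← h.iff (e j) (Function.extend e y 0),
      ← h.iff (e j) (rot (e j) (p (e j)) (Function.extend e y 0)), rot_rot _ _ hne]
    suffices Function.extend e (rot j j y) 0 = fun l =>
        if l = e j ∨ l = p (e j) then -Function.extend e y 0 l else Function.extend e y 0 l by
      rw [this]
    funext l
    by_cases hl : ∃ i, e i = l
    · obtain ⟨i, rfl⟩ := hl
      have h1 : e i ≠ p (e j) := fun e' => hc ⟨i, e'⟩
      rcases eq_or_ne i j with rfl | hij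
      · simp [rot, he.extend_apply]
      · simp [rot, he.extend_apply, hij, he.eq_iff, h1]
    · simp [extend_apply' _ _ _ hl]

theorem equi_of_turnInv {p : Fin n → Fin n} {K : Set (Fin n → ℝ)} (hK : Good K)
    (h : TurnInv p K) : Equi K := by
  intro m e he
  have hS := (good_sec hK he).cpt.isClosed.measurableSet
  let f : (Fin m → Bool) → ℝ := fun s => volume.real (sec K e ∩ orth s)
  have hflip : ∀ s j, f (update s j (!(s j))) = f s := by
    intro s j
    obtain ⟨k, hk⟩ := h.sec_step he j
    have key : ∀ s : Fin m → Bool,
        f (fun l => if l = j then !(s k) else if l = k then s j else s l) = f s := by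
      intro s
      have hpre : rot j k ⁻¹'
          (sec K e ∩ orth fun l => if l = j then !(s k) else if l = k then s j else s l) =
          sec K e ∩ orth s := by
        ext y
        simp only [mem_preimage, mem_inter_iff, hk y, rot_mem_orth]
      simp only [f, measureReal_def]
      rw [← hpre, (measurePreserving_rot j k).measure_preimage
        (hS.inter (measurableSet_orth _)).nullMeasurableSet]
    by_cases hsk : s j = s k
    · rw [← key s]
      congr 1
      funext l
      rcases eq_or_ne l j with rfl | hl
      · simp [hsk]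
      rcases eq_or_ne l k with rfl | hl'
      · simp [hl, hsk]
      · simp [hl, hl']
    · have hjk : k ≠ j := fun e' => hsk (by rw [e'])
      rw [← key (update s j (!(s j)))]
      congr 1
      funext l
      rcases eq_or_ne l j with rfl | hl
      · simp only [if_pos, update_of_ne hjk]
        revert hsk; cases s l <;> cases s k <;> simp
      rcases eq_or_ne l k with rfl | hl'
      · simp only [if_neg hl, if_pos, update_self]
        revert hsk; cases s l <;> cases s j <;> simp
      · simp [hl, hl']
  have hall : ∀ s t, f s = f t := by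
    intro s t
    have : ∀ S : Finset (Fin m), f (S.piecewise t s) = f s := by
      intro S
      induction S using Finset.induction_on with
      | empty => simp
      | insert a S ha ih =>
        rw [Finset.piecewise_insert, ← ih]
        rcases Bool.eq_or_eq_not (t a) (S.piecewise t s a) with h' | h'
        · rw [h', update_eq_self]
        · rw [h', hflip]
    rw [← this Finset.univ, Finset.piecewise_univ]
  exact hall

/-- The volume product is invariant under linear bijections. -/
theorem vol_prod_image {K : Set (Fin n → ℝ)} (T : (Fin n → ℝ) ≃ₗ[ℝ] (Fin n → ℝ)) :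
    volume.real (T '' K) * volume.real (polar (T '' K)) =
      volume.real K * volume.real (polar K) := by
  set S := Matrix.toLin' (LinearMap.toMatrix' (T : (Fin n → ℝ) →ₗ[ℝ] (Fin n → ℝ))).transpose with hSdef
  have hdet : LinearMap.det S = LinearMap.det (T : (Fin n → ℝ) →ₗ[ℝ] (Fin n → ℝ)) := by
    rw [hSdef, LinearMap.det_toLin', Matrix.det_transpose, LinearMap.det_toMatrix']
  have hne : LinearMap.det (T : (Fin n → ℝ) →ₗ[ℝ] (Fin n → ℝ)) ≠ 0 := T.isUnit_det'.ne_zero
  have hp : polar (T '' K) = S ⁻¹' polar K := by
    ext y
    simp only [mem_preimage, mem_polar, forall_mem_image]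
    refine forall₂_congr fun x _ => ?_
    suffices dot (T x) y = dot x (S y) by rw [this]
    have hx : T x = (LinearMap.toMatrix' (T : (Fin n → ℝ) →ₗ[ℝ] (Fin n → ℝ))).mulVec x := by
      rw [LinearMap.toMatrix'_mulVec]; rfl
    rw [hx, hSdef, Matrix.toLin'_apply]
    simp only [dot, Matrix.mulVec, dotProduct, Matrix.transpose_apply, Finset.sum_mul,
      Finset.mul_sum]
    rw [Finset.sum_comm]
    exact Finset.sum_congr rfl fun i _ => Finset.sum_congr rfl fun j _ => by ring
  rw [hp, measureReal_def, measureReal_def, measureReal_def, measureReal_def,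
    show (T '' K) = (T : (Fin n → ℝ) →ₗ[ℝ] (Fin n → ℝ)) '' K from rfl, Measure.addHaar_image_linearMap,
    Measure.addHaar_preimage_linearMap _ (by rw [hdet]; exact hne),
    ENNReal.toReal_mul, ENNReal.toReal_mul, ENNReal.toReal_ofReal (abs_nonneg _),
    ENNReal.toReal_ofReal (abs_nonneg _), hdet, abs_inv]
  field_simp

theorem Good.image {K : Set (Fin n → ℝ)} (hK : Good K) (T : (Fin n → ℝ) ≃ₗ[ℝ] (Fin n → ℝ)) :
    Good (T '' K) where
  cpt := hK.cpt.image T.toContinuousLinearEquiv.continuous
  conv := hK.conv.linear_image (T : (Fin n → ℝ) →ₗ[ℝ] (Fin n → ℝ))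
  int := by
    have h := T.toContinuousLinearEquiv.toHomeomorph.image_interior K
    have h0 : (0 : Fin n → ℝ) ∈ T.toContinuousLinearEquiv.toHomeomorph '' interior K :=
      ⟨0, hK.int, T.map_zero⟩
    rw [h] at h0
    exact h0

end Vale.Agent.P248
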