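import Vale.Agent.P248.Turn

/-!
# P248: the Saint-Raymond recursion over a subset of reflection coordinates
-/

open MeasureTheory Set Filter Topology Real Function
open scoped Pointwise Nat

namespace Vale.Agent.P248

variable {n : ℕ}

/-- Invariance under the sign change of each coordinate in `J`. -/
def FlipInv (J : Finset (Fin n)) (K : Set (Fin n → ℝ)) : Prop :=
  ∀ i ∈ J, ∀ x ∈ K, update x i (-x i) ∈ K

lemma FlipInv.flip_mem {J : Finset (Fin n)} {K : Set (Fin n → ℝ)} (h : FlipInv J K) :
    ∀ A : Finset (Fin n), A ⊆ J → ∀ x ∈ K, (fun l => if l ∈ A then -x l else x l) ∈ K := by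
  intro A
  induction A using Finset.induction_on with
  | empty => intro _ x hx; simpa using hx
  | insert a A ha ih =>
    intro hA x hx
    have h1 := h a (hA (Finset.mem_insert_self a A)) _
      (ih (fun b hb => hA (Finset.mem_insert_of_mem hb)) x hx)
    convert h1 using 1
    funext l
    rcases eq_or_ne l a with rfl | hl
    · simp [ha]
    · simp [hl]

/-- The Saint-Raymond criterion over the reflection coordinates. -/
theorem crit_flip {K : Set (Fin (n + 1) → ℝ)} (hK : Good K) {J : Finset (Fin (n + 1))}
    (hJ : FlipInv J K) {v : Fin (n + 1) → ℝ} (hv : v ∈ K) :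
    2 * ∑ i ∈ J, |v i| * volume.real (sec K i.succAbove) ≤ (n + 1) * volume.real K := by
  refine le_of_scaled (n + 1) fun l hl0 hl1 => ?_
  obtain ⟨N, V, sel, g, hV, hg, hgle, hglow⟩ := exists_poly hK
    hK.exists_polar_attain (fun x y hy => hK.dot_le_of_mem_polar hy x) hl0 hl1
  have hint := hg.integrable_exp hK hl0 hglow
  set G : Fin (n + 1) → (Fin n → Bool) → ℝ :=
    fun i t => ∫ y in orth t, exp (-g (ins i 0 y)) with hG
  set A : (Fin (n + 1) → Bool) → Fin (n + 1) → ℝ :=
    fun s i => ∫ x in orth s, V (sel x) i * exp (-g x) with hA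
  have hflux : ∀ s i, (if s i then 1 else -1 : ℝ) * A s i = G i (fun j => s (i.succAbove j)) :=
    fun s i => hg.flux hint s i
  set w : (Fin (n + 1) → Bool) → Fin (n + 1) → ℝ :=
    fun s i => if i ∈ J then (if s i then 1 else -1) * |v i| else v i with hw
  have hwK : ∀ s, w s ∈ K := by
    intro s
    have := hJ.flip_mem (J.filter fun i => w s i = -v i) (Finset.filter_subset _ _) v hv
    convert this using 1
    funext i
    by_cases hi : i ∈ J
    · by_cases he : w s i = -v i
      · simp [hi, he]
      · simp only [Finset.mem_filter, he, and_false, if_false]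
        have hor : w s i = v i ∨ w s i = -v i := by
          simp only [hw, if_pos hi]
          rcases abs_choice (v i) with e | e <;> cases s i <;> simp [e]
        exact hor.resolve_right he
    · simp [hi, hw]
  have hint' : ∀ s i, Integrable (fun x => w s i * (V (sel x) i * exp (-g x)))
      (volume.restrict (orth s)) := fun s i =>
    ((hg.integrable_comp hint (f := fun j => V j i)).const_mul _).integrableOn
  have hup : ∀ s, ∑ i, w s i * A s i ≤ l⁻¹ ^ (n + 1) * ((n + 1)! * volume.real (K ∩ orth s)) := by
    intro s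
    refine le_trans ?_ (hg.integral_le hK hl0 hglow (measurableSet_orth s)
      fun r hr x => smul_mem_orth hr)
    simp only [hA, ← integral_const_mul]
    rw [← integral_finsetSum _ fun i _ => hint' s i]
    refine setIntegral_mono (integrable_finsetSum _ fun i _ => hint' s i) hint.integrableOn fun x => ?_
    simp only [← mul_assoc, ← Finset.sum_mul]
    exact mul_le_of_le_one_left (exp_pos _).le (hV (sel x) _ (hwK s))
  have hlow : ∀ i, (n ! : ℝ) * volume.real (sec K i.succAbove) ≤ ∑ t, G i t := by
    intro i
    have hinj := Fin.succAbove_right_injective (p := i)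
    have hS := good_sec hK hinj
    rw [hS.sum_orth_volume, Finset.mul_sum]
    refine Finset.sum_le_sum fun t _ => ?_
    rw [← hS.integral_cone (measurableSet_orth _) fun r hr x => smul_mem_orth hr]
    have hS' := hS.smul (inv_pos.2 hl0)
    have hins : Measurable fun y => exp (-g (ins i 0 y)) := by
      simp only [ins_zero_eq_extend]
      exact (hg.measurable_g.comp (continuous_extend hinj).measurable).neg.exp
    refine setIntegral_mono hS.integrableOn_cone.integrableOn
      (hS'.integrableOn_cone.integrableOn.mono' hins.aestronglyMeasurable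
        (Eventually.of_forall fun y => ?_)) fun y => ?_
    · rw [Real.norm_eq_abs, abs_exp, exp_le_exp, hS.gauge_smul_body (inv_pos.2 hl0), inv_inv,
        gauge_sec K hinj, ← ins_zero_eq_extend]
      linarith [hglow (ins i 0 y)]
    · rw [exp_le_exp, gauge_sec K hinj, ← ins_zero_eq_extend]
      exact neg_le_neg (hgle _)
  have hfree : ∀ i, i ∉ J → ∑ s, w s i * A s i = 0 := by
    intro i hi
    simp only [hw, if_neg hi, ← Finset.mul_sum]
    refine mul_eq_zero_of_right _ ?_
    refine Finset.sum_involution (fun s _ => update s i (!(s i))) (fun s _ => ?_) (fun s _ _ h => ?_)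
      (fun s _ => Finset.mem_univ _) fun s _ => ?_
    · have h1 := hflux s i
      have h2 := hflux (update s i (!(s i))) i
      simp only [update_of_ne (Fin.succAbove_ne i _)] at h2
      cases hs : s i <;> simp [hs] at h1 h2 ⊢ <;> linarith
    · simpa using congrFun h i
    · funext j
      rcases eq_or_ne j i with rfl | h <;> simp [*]
  have hrefl : ∀ i ∈ J, 2 * (|v i| * ((n ! : ℝ) * volume.real (sec K i.succAbove))) ≤
      ∑ s, w s i * A s i := by
    intro i hi
    have e : ∀ s, w s i * A s i = |v i| * G i (fun j => s (i.succAbove j)) := fun s => by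
      rw [← hflux s i]; simp only [hw, if_pos hi]; ring
    simp only [e, ← Finset.mul_sum]
    have e2 : ∑ s : Fin (n + 1) → Bool, G i (fun j => s (i.succAbove j)) =
        2 * ∑ t, G i t := by
      rw [← (Fin.insertNthEquiv (fun _ => Bool) i).sum_comp, Fintype.sum_prod_type]
      simp [Fin.insertNthEquiv]
    rw [e2, mul_left_comm]
    exact mul_le_mul_of_nonneg_left (mul_le_mul_of_nonneg_left (hlow i) two_pos.le) (abs_nonneg _)
  have h1 : ∑ i ∈ J, 2 * (|v i| * ((n ! : ℝ) * volume.real (sec K i.succAbove))) ≤
      l⁻¹ ^ (n + 1) * ((n + 1)! * volume.real K) := by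
    refine (Finset.sum_le_sum hrefl).trans ?_
    rw [Finset.sum_subset (Finset.subset_univ J) fun i _ hi => hfree i hi, Finset.sum_comm,
      hK.sum_orth_volume, Finset.mul_sum, Finset.mul_sum]
    exact Finset.sum_le_sum fun s _ => hup s
  have hp : 0 < l ^ (n + 1) := pow_pos hl0 _
  rw [inv_pow, ← div_eq_inv_mul, le_div_iff₀ hp, Nat.factorial_succ] at h1
  push_cast at h1
  refine le_of_mul_le_mul_left (le_trans (le_of_eq ?_) (h1.trans (le_of_eq ?_)))
    (show (0 : ℝ) < (n ! : ℝ) by positivity)
  · rw [Finset.mul_sum, Finset.mul_sum, Finset.mul_sum, Finset.sum_mul]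
    exact Finset.sum_congr rfl fun i _ => by ring
  · ring

/-- One step of the recursion over the reflection coordinates. -/
theorem step_flip {K : Set (Fin (n + 1) → ℝ)} (hK : Good K) {J : Finset (Fin (n + 1))}
    (hJ : FlipInv J K) :
    4 * n ! * ∑ i ∈ J,
        volume.real (sec K i.succAbove) * volume.real (polar (sec K i.succAbove)) ≤
      (n + 1) * volume.real K * ((n + 1)! * volume.real (polar K)) := by
  refine le_of_scaled (n + 1) fun l hl0 hl1 => ?_
  obtain ⟨N, V, sel, g, hV, hg, hgle, hglow⟩ := exists_poly hK.good_polar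
    (fun y => (hK.exists_attain y).imp fun x ⟨hx, e⟩ => ⟨hx, (dot_comm _ _).trans e⟩)
    (fun y x hx => (dot_comm _ _).trans_le (hK.dot_le_of_mem hx y)) hl0 hl1
  have hint := hg.integrable_exp hK.good_polar hl0 hglow
  have hflux : ∀ i : Fin (n + 1), 2 * (n ! * volume.real (polar (sec K i.succAbove))) ≤
      ∫ x, |V (sel x) i| * exp (-g x) := by
    intro i
    have hKi := good_sec hK (Fin.succAbove_right_injective (p := i))
    rw [← hKi.good_polar.integral_univ]
    refine hg.two_flux hint i hKi.good_polar.integrableOn_cone fun y => ?_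
    set M := gauge (polar (sec K i.succAbove)) y
    let p : (Fin (n + 1) → ℝ) →ₗ[ℝ] ℝ :=
      { toFun := fun x => dot (fun j => x (i.succAbove j)) y
        map_add' := fun x z => dot_add (fun j => x (i.succAbove j)) (fun j => z (i.succAbove j)) y
        map_smul' := fun r x => dot_smul r (fun j => x (i.succAbove j)) y }
    let f : (Fin (n + 1) → ℝ) →ₗ.[ℝ] ℝ :=
      { domain := LinearMap.ker (LinearMap.proj i : (Fin (n + 1) → ℝ) →ₗ[ℝ] ℝ)
        toFun := p.comp (Submodule.subtype _) }
    have hfM : ∀ x : f.domain, f x ≤ M * gauge K x := by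
      rintro ⟨x, hx⟩
      have hx0 : x i = 0 := hx
      have e : Function.extend i.succAbove (fun j => x (i.succAbove j)) 0 = x := by
        rw [← ins_zero_eq_extend, ins, ← hx0]
        exact Fin.insertNth_self_removeNth i x
      have := Good.bound_of_le hKi.absorbs (f := fun z => dot z y) (fun r z => dot_smul r z y)
        (gauge_nonneg _) (fun z hz => hKi.dot_le_of_mem hz y) (fun j => x (i.succAbove j))
      rwa [gauge_sec K Fin.succAbove_right_injective, e] at this
    obtain ⟨Y, hY1, hY2⟩ := hK.exists_extension f (M := M) (gauge_nonneg _) hfM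
    refine ⟨Y i, (hgle _).trans (Good.gauge_polar_le (gauge_nonneg _) fun x hx => ?_)⟩
    have e : ins i (Y i) y = Y := by
      funext j
      rcases Fin.eq_self_or_eq_succAbove i j with rfl | ⟨q, rfl⟩
      · simp
      · have := hY1 ⟨Pi.single (i.succAbove q) 1,
          show (Pi.single (i.succAbove q) 1 : Fin (n + 1) → ℝ) i = 0 from
            Pi.single_eq_of_ne (Fin.succAbove_ne i q).symm 1⟩
        change dot (Pi.single (i.succAbove q) 1) Y =
          dot (fun j => (Pi.single (i.succAbove q) 1 : Fin (n + 1) → ℝ) (i.succAbove j)) y at this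
        simp only [dot, Pi.single_apply, Fin.succAbove_right_injective.eq_iff, ite_mul, one_mul,
          zero_mul, Finset.sum_ite_eq', Finset.mem_univ, if_true] at this
        simpa using this.symm
    rw [e]
    exact (hY2 x).trans (mul_le_of_le_one_right (gauge_nonneg _) (gauge_le_one_of_mem hx))
  have hpt : ∀ x, ∑ i ∈ J, 2 * volume.real (sec K i.succAbove) * (|V (sel x) i| * exp (-g x)) ≤
      (n + 1) * volume.real K * exp (-g x) := fun x => by
    refine le_trans (le_of_eq ?_)
      (mul_le_mul_of_nonneg_right (crit_flip hK hJ (hV (sel x))) (exp_pos _).le)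
    rw [Finset.mul_sum, Finset.sum_mul]
    exact Finset.sum_congr rfl fun i _ => by ring
  have hi : ∀ i : Fin (n + 1), Integrable fun x =>
      2 * volume.real (sec K i.succAbove) * (|V (sel x) i| * exp (-g x)) := fun i =>
    (hg.integrable_comp hint (f := fun j => |V j i|)).const_mul _
  have h1 := integral_mono (integrable_finsetSum _ fun i _ => hi i) (hint.const_mul _) hpt
  rw [integral_finsetSum _ fun i _ => hi i, integral_const_mul] at h1
  have h2 := hg.integral_le hK.good_polar hl0 hglow MeasurableSet.univ (fun r _ x => by simp)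
  rw [setIntegral_univ, inter_univ] at h2
  have h3 := h1.trans (mul_le_mul_of_nonneg_left h2 (by positivity))
  have hp : 0 < l ^ (n + 1) := pow_pos hl0 _
  have h4 : 4 * n ! * ∑ i ∈ J,
        volume.real (sec K i.succAbove) * volume.real (polar (sec K i.succAbove)) ≤
      (n + 1) * volume.real K * (l⁻¹ ^ (n + 1) * ((n + 1)! * volume.real (polar K))) := by
    refine le_trans ?_ h3
    rw [Finset.mul_sum]
    refine Finset.sum_le_sum fun i _ => ?_
    rw [integral_const_mul]
    refine le_trans (le_of_eq ?_) (mul_le_mul_of_nonneg_left (hflux i) (by positivity))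
    ring
  refine (mul_le_mul_of_nonneg_left h4 hp.le).trans (le_of_eq ?_)
  rw [inv_pow]
  field_simp

lemma FlipInv.sec_succAbove {K : Set (Fin (n + 1) → ℝ)} {J : Finset (Fin (n + 1))}
    (h : FlipInv J K) (i : Fin (n + 1)) :
    FlipInv (Finset.univ.filter fun j => i.succAbove j ∈ J) (sec K i.succAbove) := by
  intro j hj y hy
  have := h _ (Finset.mem_filter.1 hj).2 _ (mem_sec.1 hy)
  rw [mem_sec]
  convert this using 1
  rw [← ins_zero_eq_extend, ← ins_zero_eq_extend]
  funext q
  rcases Fin.eq_self_or_eq_succAbove i q with rfl | ⟨p, rfl⟩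
  · simp [(Fin.succAbove_ne q j).symm]
  · rcases eq_or_ne p j with rfl | hp
    · simp
    · simp [hp]

lemma card_filter_succAbove {J : Finset (Fin (n + 1))} {i : Fin (n + 1)} (hi : i ∈ J) :
    (Finset.univ.filter fun j => i.succAbove j ∈ J).card + 1 = J.card := by
  have e : (Finset.univ.filter fun j => i.succAbove j ∈ J).map i.succAboveEmb = J.erase i := by
    ext q
    rcases Fin.eq_self_or_eq_succAbove i q with rfl | ⟨p, rfl⟩
    · simp [Fin.succAbove_ne]
    · simp [Fin.succAbove_ne]
  rw [← Finset.card_map i.succAboveEmb, e, Finset.card_erase_add_one hi]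

end Vale.Agent.P248
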