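import Vale.Agent.P248.Flip
import Vale.Agent.P254.Orlicz.Simplex

/-!
# P248: a lower bound of the volume product for bodies with many commuting reflections
-/

open MeasureTheory Set Filter Topology Real Function
open scoped Pointwise Nat

namespace Vale.Agent.P248

variable {n : ℕ}

lemma vol_corner (n : ℕ) :
    volume.real {x : Fin n → ℝ | (∀ i, 0 ≤ x i) ∧ ∑ i, x i ≤ 1} = 1 / (n ! : ℝ) := by
  have h := P254.Orlicz.S_lin n 1
  rw [P254.Orlicz.S, P254.Orlicz.body_lin, P254.Orlicz.P_of_nonneg n zero_le_one, one_pow] at h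
  exact h

lemma vol_cross (hn : 0 < n) :
    volume.real {y : Fin n → ℝ | ∑ i, |y i| ≤ 1 / 2} = 1 / (n ! : ℝ) := by
  have : Nonempty (Fin n) := ⟨⟨0, hn⟩⟩
  have h := volume_sum_rpow_le (Fin n) (p := 1) le_rfl (1 / 2)
  simp only [rpow_one, div_one, Fintype.card_fin, Real.Gamma_nat_eq_factorial] at h
  rw [show ((1:ℝ) + 1) = ((1 : ℕ) : ℝ) + 1 by norm_num, Real.Gamma_nat_eq_factorial] at h
  rw [measureReal_def, h, ENNReal.toReal_mul, ENNReal.toReal_pow,
    ENNReal.toReal_ofReal (by norm_num), ENNReal.toReal_ofReal (by positivity), ← mul_div_assoc,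
    ← mul_pow]
  norm_num

lemma vol_zero_dim {A : Set (Fin 0 → ℝ)} (hA : A.Nonempty) : volume.real A = 1 := by
  rw [Subsingleton.eq_univ_of_nonempty hA, measureReal_def, volume_pi, Measure.pi_univ]
  simp

lemma vol_simplex_le {C : Set (Fin n → ℝ)} (hn : 0 < n) (hC : Convex ℝ C) (hc : IsCompact C)
    (a : Fin n → ℝ) (h0 : a ∈ C) (h : ∀ i, a + Pi.single i 1 ∈ C) :
    1 / (n ! : ℝ) ≤ volume.real C := by
  have hsub : (fun x => a + x) '' {x : Fin n → ℝ | (∀ i, 0 ≤ x i) ∧ ∑ i, x i ≤ 1} ⊆ C := by
    rintro _ ⟨x, ⟨hx, hs⟩, rfl⟩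
    have := hC.sum_mem (t := (Finset.univ : Finset (Option (Fin n))))
      (w := fun o => o.elim (1 - ∑ i, x i) x) (z := fun o => o.elim a fun i => a + Pi.single i 1)
      (fun o _ => by cases o <;> simp [hs, hx]) (by simp [Fintype.sum_option])
      (fun o _ => by cases o <;> simp [h0, h])
    convert this using 1
    funext j
    simp [Fintype.sum_option, Pi.single_apply, Finset.sum_add_distrib, mul_add, ← Finset.sum_mul]
    ring
  refine le_trans (le_of_eq ?_) (measureReal_mono hsub hc.measure_lt_top.ne)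
  rw [image_add_left, measureReal_def, measure_preimage_add, ← measureReal_def]
  exact (vol_corner n).symm

/-- For every body with the origin inside, `(n!) ^ 2 * |K| * |K°|` is at least one. -/
theorem base_bound {K : Set (Fin n → ℝ)} (hK : Good K) :
    1 ≤ (n ! : ℝ) ^ 2 * (volume.real K * volume.real (polar K)) := by
  rcases Nat.eq_zero_or_pos n with rfl | hn
  · rw [vol_zero_dim ⟨0, hK.zero_mem⟩, vol_zero_dim ⟨0, hK.good_polar.zero_mem⟩]
    simp
  let W : (Option (Fin n) → Fin n → ℝ) → Matrix (Fin n) (Fin n) ℝ :=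
    fun v => Matrix.of fun i j => v (some j) i - v none i
  have hcont : Continuous fun v => |(W v).det| :=
    (Continuous.matrix_det (continuous_matrix fun i j => by fun_prop)).abs
  obtain ⟨v, hv, hmax⟩ := (isCompact_univ_pi fun _ : Option (Fin n) => hK.cpt).exists_isMaxOn
    ⟨fun _ => 0, fun _ _ => hK.zero_mem⟩ hcont.continuousOn
  have hv' : ∀ o, v o ∈ K := fun o => hv o trivial
  have hd : (W v).det ≠ 0 := by
    obtain ⟨r, hr, hb⟩ := Metric.mem_nhds_iff.1 (mem_interior_iff_mem_nhds.1 hK.int)
    let u : Option (Fin n) → Fin n → ℝ := fun o => o.elim 0 fun i => Pi.single i (r / 2)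
    have hu : u ∈ Set.pi univ fun _ : Option (Fin n) => K := by
      intro o _
      cases o with
      | none => exact hK.zero_mem
      | some i =>
        refine hb ?_
        rw [Metric.mem_ball, dist_zero_right]
        show ‖(Pi.single i (r / 2) : Fin n → ℝ)‖ < r
        rw [Pi.norm_single, Real.norm_eq_abs, abs_of_pos (by linarith)]
        linarith
    have e : W u = Matrix.diagonal fun _ => r / 2 := by
      ext i j
      simp [W, u, Matrix.diagonal_apply, Pi.single_apply]
    have h2 := hmax hu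
    simp only [mem_ofPred_eq, e, Matrix.det_diagonal, Finset.prod_const] at h2
    intro h0
    rw [h0, abs_zero] at h2
    have : 0 < |(r / 2) ^ (Finset.univ : Finset (Fin n)).card| := by positivity
    linarith
  have hbij : Bijective (Matrix.toLin' (W v)) := by
    have := (Matrix.mulVec_injective_iff_isUnit.2 ((Matrix.isUnit_iff_isUnit_det _).2 hd.isUnit))
    refine ⟨fun x y h => this (by simpa using h), ?_⟩
    exact LinearMap.surjective_of_injective (f := Matrix.toLin' (W v))
      fun x y h => this (by simpa using h)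
  set L := LinearEquiv.ofBijective (Matrix.toLin' (W v)) hbij with hL
  have hLa : ∀ a, L a = (W v).mulVec a := fun a => by simp [hL]
  set T := L.symm with hT
  have hcoef : ∀ p ∈ K, ∀ i, |T (p - v none) i| ≤ 1 := by
    intro p hp i
    set a := T (p - v none) with ha
    have e : (W v).mulVec a = p - v none := by rw [← hLa, ha, hT, L.apply_symm_apply]
    let u : Option (Fin n) → Fin n → ℝ := update v (some i) p
    have hu : u ∈ Set.pi univ fun _ : Option (Fin n) => K := by
      intro o _
      rcases eq_or_ne o (some i) with rfl | ho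
      · simpa [u] using hp
      · simpa [u, update_of_ne ho] using hv' o
    have e2 : W u = (W v).updateCol i ((W v).mulVec a) := by
      ext q j
      rw [e, Matrix.updateCol_apply]
      rcases eq_or_ne j i with rfl | hj
      · simp [W, u]
      · simp [W, u, hj]
    have e3 : (W u).det = (W v).det * a i := by
      rw [e2, ← Matrix.cramer_apply, Matrix.cramer_eq_adjugate_mulVec, Matrix.mulVec_mulVec,
        Matrix.adjugate_mul, Matrix.smul_mulVec, Matrix.one_mulVec]
      simp
    have h2 := hmax hu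
    simp only [mem_ofPred_eq, e3, abs_mul] at h2
    nlinarith [abs_pos.2 hd]
  have hK' := hK.image T
  rw [← vol_prod_image (K := K) T]
  have h1 : 1 / (n ! : ℝ) ≤ volume.real (T '' K) := by
    refine vol_simplex_le hn hK'.conv hK'.cpt (T (v none)) ⟨_, hv' none, rfl⟩ fun i =>
      ⟨_, hv' (some i), ?_⟩
    have : L (Pi.single i 1) = v (some i) - v none := by
      rw [hLa]; funext q; simp [W]
    rw [← L.symm_apply_apply (Pi.single i 1), this, ← hT, map_sub]
    abel
  have h2 : 1 / (n ! : ℝ) ≤ volume.real (polar (T '' K)) := by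
    rw [← vol_cross hn]
    refine measureReal_mono ?_ hK'.good_polar.cpt.measure_lt_top.ne
    intro y hy
    rintro _ ⟨p, hp, rfl⟩
    have hb : ∀ i, |T p i| ≤ 2 := fun i => by
      have e : T p = T (p - v none) - T (0 - v none) := by rw [← map_sub]; simp
      rw [e, Pi.sub_apply]
      exact (abs_sub _ _).trans (by linarith [hcoef p hp i, hcoef 0 hK.zero_mem i])
    calc ∑ i, T p i * y i ≤ ∑ i, 2 * |y i| := Finset.sum_le_sum fun i _ => by
          refine (le_abs_self _).trans ?_
          rw [abs_mul]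
          exact mul_le_mul_of_nonneg_right (hb i) (abs_nonneg _)
      _ ≤ 1 := by rw [← Finset.mul_sum]; linarith [show ∑ i, |y i| ≤ 1 / 2 from hy]
  have h3 := mul_le_mul h1 h2 (by positivity) measureReal_nonneg
  calc (1 : ℝ) = (n ! : ℝ) ^ 2 * (1 / (n ! : ℝ) * (1 / (n ! : ℝ))) := by field_simp
    _ ≤ _ := mul_le_mul_of_nonneg_left h3 (sq_nonneg _)

/-- The volume product of a body invariant under `k` coordinate reflections. -/
theorem flip_bound : ∀ (n : ℕ) (K : Set (Fin n → ℝ)), Good K → ∀ J : Finset (Fin n), FlipInv J K →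
    (4 : ℝ) ^ J.card * J.card ! ≤ (n ! : ℝ) ^ 2 * (volume.real K * volume.real (polar K)) := by
  intro n
  induction n with
  | zero =>
    intro K hK J _
    rw [Finset.eq_empty_of_isEmpty J]
    simpa using base_bound hK
  | succ n ih =>
    intro K hK J hJ
    rcases J.eq_empty_or_nonempty with rfl | hne
    · simpa using base_bound hK
    obtain ⟨k, hk⟩ := Nat.exists_eq_succ_of_ne_zero hne.card_pos.ne'
    have hi : ∀ i ∈ J, (4 : ℝ) ^ k * k ! ≤ (n ! : ℝ) ^ 2 *
        (volume.real (sec K i.succAbove) * volume.real (polar (sec K i.succAbove))) := fun i hi => by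
      have h := ih _ (good_sec hK Fin.succAbove_right_injective) _ (hJ.sec_succAbove i)
      have e := card_filter_succAbove hi
      rw [hk] at e
      rwa [show (Finset.univ.filter fun j => i.succAbove j ∈ J).card = k by omega] at h
    have h1 := Finset.sum_le_sum hi
    rw [Finset.sum_const, ← Finset.mul_sum, nsmul_eq_mul, hk] at h1
    have h2 := step_flip hK hJ
    rw [hk, Nat.factorial_succ n, Nat.factorial_succ k, pow_succ]
    rw [Nat.factorial_succ n] at h2
    push_cast at h1 h2 ⊢
    have h3 := mul_le_mul_of_nonneg_left h1 (show (0:ℝ) ≤ 4 by norm_num)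
    have h4 := mul_le_mul_of_nonneg_left h2 (Nat.cast_nonneg (α := ℝ) (n !))
    linarith

/-- Translating the centre to the fixed subspace does not increase the polar volume. -/
theorem vol_polar_centre {K : Set (Fin n → ℝ)} (hc : IsCompact K) (hconv : Convex ℝ K)
    {J : Finset (Fin n)} (hJ : FlipInv J K) {z : Fin n → ℝ} (hz : z ∈ interior K) :
    ∃ z₀ : Fin n → ℝ, (∀ i ∈ J, z₀ i = 0) ∧ Good ((fun x => x - z₀) '' K) ∧
      volume.real (polar ((fun x => x - z₀) '' K)) ≤ volume.real (polar ((fun x => x - z) '' K)) := by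
  have good : ∀ z ∈ interior K, Good ((fun x => x - z) '' K) := fun z hz =>
    { cpt := hc.image (by fun_prop)
      conv := by
        have := hconv.translate (-z)
        simpa [sub_eq_neg_add] using this
      int := by
        have h := (Homeomorph.subRight z).image_interior K
        have : (0 : Fin n → ℝ) ∈ Homeomorph.subRight z '' interior K := ⟨z, hz, by simp⟩
        rw [h] at this
        exact this }
  set σ : (Fin n → ℝ) → Fin n → ℝ := fun x l => if l ∈ J then -x l else x l with hσ
  have hσσ : ∀ x, σ (σ x) = x := fun x => by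
    funext l; by_cases h : l ∈ J <;> simp [hσ, h]
  have hσK : ∀ x ∈ K, σ x ∈ K := hJ.flip_mem J subset_rfl
  have hσc : Continuous σ := continuous_pi fun l => by by_cases h : l ∈ J <;> simp [hσ, h] <;> fun_prop
  let H : (Fin n → ℝ) ≃ₜ (Fin n → ℝ) :=
    { toFun := σ, invFun := σ, left_inv := hσσ, right_inv := hσσ
      continuous_toFun := hσc, continuous_invFun := hσc }
  have himg : σ '' K = K := by
    refine Subset.antisymm (image_subset_iff.2 hσK) fun x hx => ⟨σ x, hσK x hx, hσσ x⟩
  have hzσ : σ z ∈ interior K := by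
    have : σ z ∈ H '' interior K := ⟨z, hz, rfl⟩
    rwa [H.image_interior, show (H : _ → _) = σ from rfl, himg] at this
  set z₀ := (1 / 2 : ℝ) • z + (1 / 2 : ℝ) • σ z with hz₀
  have hz₀i : z₀ ∈ interior K :=
    hconv.interior hz hzσ (by norm_num) (by norm_num) (by norm_num)
  refine ⟨z₀, fun i hi => by simp [hz₀, hσ, hi], good z₀ hz₀i, ?_⟩
  have hG := fun w hw => (good w hw).good_polar
  set h : (Fin n → ℝ) → (Fin n → ℝ) → ℝ :=
    fun w y => gauge (polar ((fun x => x - w) '' K)) y with hh
  have hmp : MeasurePreserving σ := by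
    refine volume_preserving_pi (f := fun l (t : ℝ) => if l ∈ J then -t else t) fun l => ?_
    by_cases hl : l ∈ J
    · simpa [hl] using Measure.measurePreserving_neg (volume : Measure ℝ)
    · simpa [hl, Function.id_def] using MeasurePreserving.id (volume : Measure ℝ)
  have hdot : ∀ x y, dot (σ x) (σ y) = dot x y := fun x y => by
    refine Finset.sum_congr rfl fun l _ => ?_
    by_cases hl : l ∈ J <;> simp [hσ, hl]
  have hsub : ∀ x w, σ x - σ w = σ (x - w) := fun x w => by
    funext l; by_cases hl : l ∈ J <;> simp [hσ, hl] <;> ring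
  have hle : ∀ w ∈ interior K, ∀ x ∈ K, ∀ y, dot (x - w) y ≤ h w y := fun w hw x hx y =>
    (good w hw).dot_le_of_mem ⟨x, hx, rfl⟩ y
  have hsym : ∀ y, h (σ z) (σ y) = h z y := by
    intro y
    refine le_antisymm (Good.gauge_polar_le (gauge_nonneg _) ?_)
      (Good.gauge_polar_le (gauge_nonneg _) ?_)
    · rintro _ ⟨x, hx, rfl⟩
      have := hle z hz (σ x) (hσK x hx) y
      rwa [← hdot (σ x - z) y, ← hsub, hσσ] at this
    · rintro _ ⟨x, hx, rfl⟩
      have := hle (σ z) hzσ (σ x) (hσK x hx) (σ y)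
      rwa [hsub, hdot] at this
  have hpt : ∀ y, exp (-h z₀ y) ≤ (1 / 2) * (exp (-h z y) + exp (-h (σ z) y)) := by
    intro y
    have half : ∀ w ∈ interior K, h w y ≤ h z₀ y + dot (z₀ - w) y := by
      intro w hw
      obtain ⟨_, ⟨x, hx, rfl⟩, e⟩ := (good w hw).exists_attain y
      have h1 := hle z₀ hz₀i x hx y
      rw [show h w y = dot (x - w) y from e.symm,
        show x - w = (x - z₀) + (z₀ - w) by abel, dot_add]
      linarith
    have h3 : dot (z₀ - z) y + dot (z₀ - σ z) y = 0 := by
      rw [← dot_add, show (z₀ - z) + (z₀ - σ z) = (0 : ℝ) • z by funext l; simp [hz₀]; ring,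
        dot_smul, zero_mul]
    have h4 := convexOn_exp.2 (mem_univ (-h z y)) (mem_univ (-h (σ z) y))
      (show (0:ℝ) ≤ 1 / 2 by norm_num) (show (0:ℝ) ≤ 1 / 2 by norm_num) (by norm_num)
    simp only [smul_eq_mul] at h4
    have h5 : exp (-h z₀ y) ≤ exp (1 / 2 * -h z y + 1 / 2 * -h (σ z) y) :=
      exp_le_exp.2 (by linarith [half z hz, half (σ z) hzσ])
    linarith
  have hint : ∀ w ∈ interior K, Integrable fun y => exp (-h w y) := fun w hw =>
    (hG w hw).integrableOn_cone
  have heq : ∫ y, exp (-h (σ z) y) = ∫ y, exp (-h z y) := by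
    rw [← hmp.integral_comp H.measurableEmbedding (fun y => exp (-h (σ z) y))]
    simp only [hsym]
  have h1 := integral_mono (hint z₀ hz₀i) (((hint z hz).add (hint (σ z) hzσ)).const_mul _)
    (fun y => hpt y)
  simp only [Pi.add_apply] at h1
  rw [integral_const_mul, integral_add (hint z hz) (hint (σ z) hzσ), heq] at h1
  simp only [hh, (hG _ hz₀i).integral_univ, (hG _ hz).integral_univ] at h1
  exact le_of_mul_le_mul_left (by linarith) (show (0 : ℝ) < (n ! : ℝ) by positivity)

/-- The general Mahler bound for bodies with `k` commuting affine reflections, at every centre. -/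
theorem affine_flip_bound {K : Set (Fin n → ℝ)} (hc : IsCompact K) (hconv : Convex ℝ K)
    (T : (Fin n → ℝ) ≃ₗ[ℝ] (Fin n → ℝ)) (b : Fin n → ℝ) {J : Finset (Fin n)}
    (hJ : FlipInv J ((fun x => T (x - b)) '' K)) {z : Fin n → ℝ} (hz : z ∈ interior K) :
    (4 : ℝ) ^ J.card * J.card ! ≤
      (n ! : ℝ) ^ 2 * (volume.real K * volume.real (polar ((fun x => x - z) '' K))) := by
  set K' := (fun x => T (x - b)) '' K with hK'
  let F : (Fin n → ℝ) ≃ₜ (Fin n → ℝ) := (Homeomorph.subRight b).trans T.toContinuousLinearEquiv.toHomeomorph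
  have hcvx : Convex ℝ K' := by
    have := (hconv.translate (-b)).linear_image (T : (Fin n → ℝ) →ₗ[ℝ] (Fin n → ℝ))
    simpa [hK', image_image, sub_eq_neg_add] using this
  have hz' : T (z - b) ∈ interior K' := by
    have h : F z ∈ F '' interior K := ⟨z, hz, rfl⟩
    rwa [F.image_interior] at h
  obtain ⟨z₀, hz₀, hgood, hle⟩ :=
    vol_polar_centre (hc.image F.continuous) hcvx hJ hz'
  have hflip : FlipInv J ((fun x => x - z₀) '' K') := by
    rintro i hi _ ⟨x, hx, rfl⟩
    refine ⟨_, hJ i hi x hx, ?_⟩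
    funext l
    rcases eq_or_ne l i with rfl | hl
    · simp [hz₀ l hi]
    · simp [hl]
  have h1 := flip_bound n _ hgood J hflip
  refine h1.trans (mul_le_mul_of_nonneg_left ?_ (sq_nonneg _))
  have hv : ∀ (w : Fin n → ℝ) (A : Set (Fin n → ℝ)),
      volume.real ((fun x => x - w) '' A) = volume.real A := fun w A => by
    simp only [sub_eq_add_neg, image_add_right, measureReal_def, measure_preimage_add_right]
  have himg : (fun x => x - T (z - b)) '' K' = T '' ((fun x => x - z) '' K) := by
    rw [hK', image_image, image_image]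
    congr 1
    funext x
    rw [← map_sub]
    congr 1
    abel
  calc volume.real ((fun x => x - z₀) '' K') * volume.real (polar ((fun x => x - z₀) '' K'))
      ≤ volume.real ((fun x => x - z₀) '' K') *
          volume.real (polar ((fun x => x - T (z - b)) '' K')) :=
        mul_le_mul_of_nonneg_left hle measureReal_nonneg
    _ = volume.real (T '' ((fun x => x - z) '' K)) *
          volume.real (polar (T '' ((fun x => x - z) '' K))) := by
        rw [hv, himg, ← hv (T (z - b)) K', himg]
    _ = _ := by rw [vol_prod_image, hv]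

/-- For a fixed number of missing reflections the bound exceeds the simplex value eventually. -/
theorem eventually_simplex_lt (m : ℕ) :
    ∃ N : ℕ, ∀ n : ℕ, N ≤ n → ((n : ℝ) + 1) ^ (n + 1) < 4 ^ (n - m) * ((n - m) ! : ℝ) := by
  have hr : 1 < 4 / exp 1 := by
    rw [one_lt_div (exp_pos 1)]
    exact Real.exp_one_lt_d9.trans (by norm_num)
  have ht := (tendsto_pow_const_div_const_pow_of_one_lt (m + 1) hr).eventually
    (gt_mem_nhds (show (0 : ℝ) < 1 / (2 * exp 1 * 4 ^ m) by positivity))
  obtain ⟨N, hN⟩ := eventually_atTop.1 ht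
  refine ⟨max N (max m 1), fun n hn => ?_⟩
  simp only [max_le_iff] at hn
  obtain ⟨hnN, hnm, hn1⟩ := hn
  have h1 := hN n hnN
  have hn0 : (0 : ℝ) < n := by exact_mod_cast hn1
  have h2 := Real.pow_div_factorial_le_exp (n : ℝ) hn0.le n
  rw [div_le_iff₀ (by positivity), ← Real.exp_one_pow] at h2
  rw [div_pow, div_lt_div_iff₀ (by positivity) (by positivity), one_mul,
    lt_div_iff₀ (by positivity)] at h1
  have h3 : ((n : ℝ) + 1) ^ n ≤ exp 1 * (n : ℝ) ^ n := by
    have h := pow_le_pow_left₀ (by positivity) (Real.add_one_le_exp (1 / (n : ℝ))) n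
    rw [← Real.exp_nat_mul, mul_one_div_cancel hn0.ne',
      show (1 : ℝ) / n + 1 = ((n : ℝ) + 1) / n by field_simp; ring, div_pow,
      div_le_iff₀ (by positivity)] at h
    exact h
  have h4 : (n ! : ℝ) ≤ ((n - m) ! : ℝ) * (n : ℝ) ^ m := by
    have h := Nat.factorial_mul_descFactorial hnm
    have h' := Nat.descFactorial_le_pow n m
    exact_mod_cast h ▸ Nat.mul_le_mul_left ((n - m)!) h'
  have h6 : (4 : ℝ) ^ n = 4 ^ (n - m) * 4 ^ m := by rw [← pow_add, Nat.sub_add_cancel hnm]
  have hE : 0 < exp 1 ^ n := by positivity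
  refine lt_of_mul_lt_mul_right ?_ (show (0:ℝ) ≤ (n : ℝ) ^ m * 4 ^ m by positivity)
  calc ((n : ℝ) + 1) ^ (n + 1) * ((n : ℝ) ^ m * 4 ^ m)
      ≤ exp 1 * (n : ℝ) ^ n * (2 * n) * ((n : ℝ) ^ m * 4 ^ m) := by
        rw [pow_succ]
        gcongr
        linarith [show (1:ℝ) ≤ n by exact_mod_cast hn1]
    _ ≤ exp 1 * (exp 1 ^ n * (n ! : ℝ)) * (2 * n) * ((n : ℝ) ^ m * 4 ^ m) := by gcongr
    _ = (n ! : ℝ) * ((n : ℝ) ^ (m + 1) * (2 * exp 1 * 4 ^ m) * exp 1 ^ n) := by ring
    _ < (n ! : ℝ) * 4 ^ n := mul_lt_mul_of_pos_left h1 (by positivity)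
    _ ≤ ((n - m) ! : ℝ) * (n : ℝ) ^ m * 4 ^ n := mul_le_mul_of_nonneg_right h4 (by positivity)
    _ = _ := by rw [h6]; ring

end Vale.Agent.P248
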