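import Mathlib

/-!
# P248: the exponential of a maximum of affine functions on the line
-/

open MeasureTheory Set Filter Topology Real

namespace Vale.Agent.P248

variable {ι : Type*} [Fintype ι] [MeasurableSpace ι] [MeasurableSingletonClass ι]

/-- An upper envelope `phi` of the lines `a j + b j * t`, attained at the index `sel t`. -/
structure Env (a b : ι → ℝ) (sel : ℝ → ι) (phi : ℝ → ℝ) (c : ℝ) : Prop where
  attain : ∀ t, phi t = a (sel t) + b (sel t) * t
  max : ∀ t j, a j + b j * t ≤ phi t
  meas : Measurable sel
  pos : 0 < c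
  low : ∀ t, c * |t| ≤ phi t

namespace Env

variable {a b : ι → ℝ} {sel : ℝ → ι} {phi : ℝ → ℝ} {c : ℝ}

lemma continuous (h : Env a b sel phi c) : Continuous phi := by
  have hne : (Finset.univ : Finset ι).Nonempty := ⟨sel 0, Finset.mem_univ _⟩
  have e : phi = fun t => Finset.univ.sup' hne fun j => a j + b j * t := funext fun t =>
    le_antisymm (h.attain t ▸ Finset.le_sup' (fun j => a j + b j * t) (Finset.mem_univ (sel t)))
      (Finset.sup'_le _ _ fun j _ => h.max t j)
  rw [e]
  exact Continuous.finset_sup'_apply hne fun j _ => by fun_prop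

lemma countable_exceptional (a b : ι → ℝ) :
    {t : ℝ | ∃ j k, b j ≠ b k ∧ a j + b j * t = a k + b k * t}.Countable := by
  have : {t : ℝ | ∃ j k, b j ≠ b k ∧ a j + b j * t = a k + b k * t} ⊆
      range fun p : ι × ι => (a p.2 - a p.1) / (b p.1 - b p.2) := by
    rintro t ⟨j, k, hb, e⟩
    refine ⟨(j, k), ?_⟩
    have := sub_ne_zero.2 hb
    field_simp
    linear_combination -e
  exact (countable_range _).mono this

lemma hasDerivAt (h : Env a b sel phi c) {t : ℝ}
    (ht : t ∉ {t : ℝ | ∃ j k, b j ≠ b k ∧ a j + b j * t = a k + b k * t}) :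
    HasDerivAt phi (b (sel t)) t := by
  set k := sel t
  have hev : ∀ j, ∀ᶠ s in 𝓝 t, a j + b j * s ≤ a k + b k * s := by
    intro j
    rcases (h.max t j).lt_or_eq with hlt | heq
    · rw [h.attain] at hlt
      have h1 : ContinuousAt (fun s => a j + b j * s) t := by fun_prop
      have h2 : ContinuousAt (fun s => a k + b k * s) t := by fun_prop
      exact (h1.eventually_lt h2 hlt).mono fun s hs => hs.le
    · rw [h.attain] at heq
      by_cases hb : b j = b k
      · refine Eventually.of_forall fun s => le_of_eq ?_
        rw [hb] at heq ⊢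
        linarith
      · exact absurd ⟨j, k, hb, heq⟩ ht
  have hall : ∀ᶠ s in 𝓝 t, phi s = a k + b k * s := by
    filter_upwards [eventually_all.2 hev] with s hs
    refine le_antisymm ?_ (h.max s k)
    rw [h.attain]
    exact hs _
  have hline : HasDerivAt (fun s => a k + b k * s) (b k) t := by
    simpa using ((hasDerivAt_id t).const_mul (b k)).const_add (a k)
  exact hline.congr_of_eventuallyEq hall

lemma neg (h : Env a b sel phi c) :
    Env a (fun j => -b j) (fun t => sel (-t)) (fun t => phi (-t)) c where
  attain t := by rw [h.attain]; ring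
  max t j := le_trans (le_of_eq (by ring)) (h.max (-t) j)
  meas := h.meas.comp measurable_neg
  pos := h.pos
  low t := by simpa using h.low (-t)

lemma measurable_slope (h : Env a b sel phi c) : Measurable fun t => b (sel t) :=
  (measurable_of_finite b).comp h.meas

lemma integrable_exp (h : Env a b sel phi c) : Integrable fun t => exp (-phi t) := by
  have hc := h.pos
  have h1 : Integrable fun t : ℝ => exp (-c * |t|) := by
    rw [← integrableOn_univ, ← Iic_union_Ioi (a := (0 : ℝ)), integrableOn_union]
    refine ⟨?_, (exp_neg_integrableOn_Ioi 0 hc).congr_fun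
      (fun t (ht : 0 < t) => by simp only [abs_of_pos ht]) measurableSet_Ioi⟩
    exact (integrableOn_exp_mul_Iic hc 0).congr_fun
      (fun t (ht : t ≤ 0) => by simp only [abs_of_nonpos ht, neg_mul_neg]) measurableSet_Iic
  refine h1.mono h.continuous.neg.rexp.aestronglyMeasurable (Eventually.of_forall fun t => ?_)
  rw [Real.norm_eq_abs, Real.norm_eq_abs, abs_exp, abs_exp, exp_le_exp]
  linarith [h.low t]

lemma integrable_slope (h : Env a b sel phi c) :
    Integrable fun t => b (sel t) * exp (-phi t) :=
  h.integrable_exp.bdd_mul (c := ∑ j, |b j|) h.measurable_slope.aestronglyMeasurable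
    (Eventually.of_forall fun t => by
      rw [Real.norm_eq_abs]
      exact Finset.single_le_sum (f := fun j => |b j|) (fun j _ => abs_nonneg _) (Finset.mem_univ _))

lemma tendsto (h : Env a b sel phi c) : Tendsto phi atTop atTop := by
  refine tendsto_atTop_mono' atTop ?_ (tendsto_id.const_mul_atTop h.pos)
  filter_upwards [eventually_ge_atTop 0] with t ht
  have := h.low t
  rwa [abs_of_nonneg ht] at this

lemma integral_Ioi (h : Env a b sel phi c) (x : ℝ) :
    ∫ t in Ioi x, b (sel t) * exp (-phi t) = exp (-phi x) := by
  have hint := h.integrable_slope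
  have hF : ∀ y, x ≤ y → ∫ t in x..y, b (sel t) * exp (-phi t) = exp (-phi x) - exp (-phi y) := by
    intro y hy
    have := integral_eq_of_hasDerivAt_off_countable_of_le (fun t => -exp (-phi t))
      (fun t => b (sel t) * exp (-phi t)) hy (countable_exceptional a b)
      h.continuous.neg.rexp.neg.continuousOn
      (fun t ht => ((h.hasDerivAt ht.2).neg.exp.neg).congr_deriv (by simp only [Pi.neg_apply]; ring))
      hint.intervalIntegrable
    rw [this]; ring
  refine tendsto_nhds_unique
    (intervalIntegral_tendsto_integral_Ioi x hint.integrableOn tendsto_id) ?_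
  have : Tendsto (fun y => exp (-phi x) - exp (-phi y)) atTop (𝓝 (exp (-phi x) - 0)) :=
    tendsto_const_nhds.sub (tendsto_exp_neg_atTop_nhds_zero.comp h.tendsto)
  rw [sub_zero] at this
  refine this.congr' ?_
  filter_upwards [eventually_ge_atTop x] with y hy
  exact (hF y hy).symm

lemma integral_Iio (h : Env a b sel phi c) (x : ℝ) :
    ∫ t in Iio x, -b (sel t) * exp (-phi t) = exp (-phi x) := by
  have := h.neg.integral_Ioi (-x)
  simp only [neg_neg] at this
  rw [← this, integral_comp_neg_Ioi (-x) fun t => -b (sel t) * exp (-phi t), neg_neg,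
    integral_Iic_eq_integral_Iio]

lemma two_le (h : Env a b sel phi c) (x : ℝ) :
    2 * exp (-phi x) ≤ ∫ t, |b (sel t)| * exp (-phi t) := by
  have hi : Integrable fun t => |b (sel t)| * exp (-phi t) := by
    refine h.integrable_slope.abs.congr (Eventually.of_forall fun t => ?_)
    simp [abs_mul]
  have h1 : exp (-phi x) ≤ ∫ t in Ioi x, |b (sel t)| * exp (-phi t) := by
    rw [← h.integral_Ioi x]
    exact setIntegral_mono h.integrable_slope.integrableOn hi.integrableOn fun t =>
      mul_le_mul_of_nonneg_right (le_abs_self _) (exp_pos _).le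
  have h2 : exp (-phi x) ≤ ∫ t in Iic x, |b (sel t)| * exp (-phi t) := by
    rw [integral_Iic_eq_integral_Iio, ← h.integral_Iio x]
    exact setIntegral_mono (h.integrable_slope.neg.congr
      (Eventually.of_forall fun t => by simp)).integrableOn hi.integrableOn fun t =>
      mul_le_mul_of_nonneg_right (neg_le_abs _) (exp_pos _).le
  rw [← intervalIntegral.integral_Iic_add_Ioi hi.integrableOn hi.integrableOn]
  linarith

end Env

end Vale.Agent.P248
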