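import Vale.Agent.P248.Line
import Vale.Agent.P248.Body

/-!
# P248: finite maxima of linear forms approximating a gauge, and slicing along a coordinate
-/

open MeasureTheory Set Filter Topology Real
open scoped Pointwise

namespace Vale.Agent.P248

variable {n N : ℕ}

/-- Insert the `i`-th coordinate. -/
def ins (i : Fin (n + 1)) (t : ℝ) (y : Fin n → ℝ) : Fin (n + 1) → ℝ := Fin.insertNth i t y

@[simp] lemma ins_same (i : Fin (n + 1)) (t : ℝ) (y : Fin n → ℝ) : ins i t y i = t := by simp [ins]

@[simp] lemma ins_succAbove (i : Fin (n + 1)) (t : ℝ) (y : Fin n → ℝ) (j : Fin n) :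
    ins i t y (i.succAbove j) = y j := by simp [ins]

lemma dot_ins (i : Fin (n + 1)) (t : ℝ) (y : Fin n → ℝ) (v : Fin (n + 1) → ℝ) :
    dot (ins i t y) v = dot (ins i 0 y) v + v i * t := by
  simp only [dot, Fin.sum_univ_succAbove _ i, ins_same, ins_succAbove]
  ring

lemma abs_le_norm_ins (i : Fin (n + 1)) (t : ℝ) (y : Fin n → ℝ) : |t| ≤ ‖ins i t y‖ := by
  simpa using norm_le_pi_norm (ins i t y) i

lemma integral_slices {f : (Fin (n + 1) → ℝ) → ℝ} (hf : Integrable f) (i : Fin (n + 1)) :
    ∫ x, f x = ∫ y : Fin n → ℝ, ∫ t : ℝ, f (ins i t y) := by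
  have h := (volume_preserving_piFinSuccAbove (fun _ : Fin (n + 1) => ℝ) i).symm
  rw [← h.integral_comp' f, Measure.volume_eq_prod, integral_prod_symm]
  · rfl
  · exact (h.integrable_comp_emb (MeasurableEquiv.measurableEmbedding _)).2 hf

lemma mem_orth_ins {i : Fin (n + 1)} {t : ℝ} {y : Fin n → ℝ} {s : Fin (n + 1) → Bool} :
    ins i t y ∈ orth s ↔
      (if s i then 0 < t else t < 0) ∧ y ∈ orth fun j => s (i.succAbove j) := by
  simp only [orth, mem_ofPred_eq, Fin.forall_iff_succAbove i, ins_same, ins_succAbove]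

/-- A maximum of finitely many linear forms, with an attained index, bounded below by a norm. -/
structure Poly (V : Fin N → Fin n → ℝ) (sel : (Fin n → ℝ) → Fin N) (g : (Fin n → ℝ) → ℝ) : Prop where
  attain : ∀ x, g x = dot x (V (sel x))
  max : ∀ x j, dot x (V j) ≤ g x
  meas : Measurable sel
  low : ∃ c, 0 < c ∧ ∀ x, c * ‖x‖ ≤ g x

theorem exists_poly {K : Set (Fin n → ℝ)} (hK : Good K) {A : Set (Fin n → ℝ)}
    (hatt : ∀ x, ∃ a ∈ A, dot x a = gauge K x) (hle : ∀ x, ∀ a ∈ A, dot x a ≤ gauge K x)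
    {l : ℝ} (hl0 : 0 < l) (hl1 : l < 1) :
    ∃ (N : ℕ) (V : Fin N → Fin n → ℝ) (sel : (Fin n → ℝ) → Fin N) (g : (Fin n → ℝ) → ℝ),
      (∀ j, V j ∈ A) ∧ Poly V sel g ∧ (∀ x, g x ≤ gauge K x) ∧ ∀ x, l * gauge K x ≤ g x := by
  obtain ⟨c, hc, hlow⟩ := hK.exists_lower
  have hopen : ∀ a : A, IsOpen {x | l * gauge K x < dot x a} := fun a =>
    isOpen_lt (hK.cont.const_mul l) (continuous_dot_left _)
  have hcov : Metric.sphere (0 : Fin n → ℝ) 1 ⊆ ⋃ a : A, {x | l * gauge K x < dot x a} := by
    intro x hx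
    rw [mem_sphere_zero_iff_norm] at hx
    obtain ⟨a, ha, e⟩ := hatt x
    refine mem_iUnion.2 ⟨⟨a, ha⟩, ?_⟩
    show l * gauge K x < dot x a
    have : 0 < gauge K x := lt_of_lt_of_le (by rw [hx, mul_one]; exact hc) (hlow x)
    rw [e]; nlinarith
  obtain ⟨T, hT⟩ := (isCompact_sphere (0 : Fin n → ℝ) 1).elim_finite_subcover _ hopen hcov
  obtain ⟨a0, ha0, -⟩ := hatt 0
  set L : List A := ⟨a0, ha0⟩ :: T.toList with hL
  set V : Fin L.length → Fin n → ℝ := fun j => (L.get j : Fin n → ℝ) with hV
  have hne : (Finset.univ : Finset (Fin L.length)).Nonempty := ⟨⟨0, by simp [hL]⟩, Finset.mem_univ _⟩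
  set g := fun x => Finset.univ.sup' hne fun j => dot x (V j) with hg
  have hmax : ∀ x j, dot x (V j) ≤ g x := fun x j =>
    Finset.le_sup' (fun j => dot x (V j)) (Finset.mem_univ j)
  have hex : ∀ x, ∃ j : Fin L.length, ∀ k, dot x (V k) ≤ dot x (V j) := fun x => by
    obtain ⟨j, -, hj⟩ := Finset.exists_max_image Finset.univ (fun j => dot x (V j)) hne
    exact ⟨j, fun k => hj k (Finset.mem_univ k)⟩
  classical
  set sel := fun x => Fin.find (fun j => ∀ k, dot x (V k) ≤ dot x (V j)) (hex x) with hsel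
  have hsel' : ∀ x k, dot x (V k) ≤ dot x (V (sel x)) := fun x => Fin.find_spec (hex x)
  have hgle : ∀ x, g x ≤ gauge K x := fun x => Finset.sup'_le _ _ fun j _ => hle x _ (L.get j).2
  have hlow' : ∀ x, l * gauge K x ≤ g x := by
    intro x
    rcases eq_or_ne x 0 with rfl | hx
    · exact le_trans (by simp [gauge_zero, dot]) (hmax 0 ⟨0, by simp [hL]⟩)
    · have hx' : ‖‖x‖⁻¹ • x‖ = 1 := norm_smul_inv_norm hx
      obtain ⟨a, ha, hlt⟩ := mem_iUnion₂.1 (hT (mem_sphere_zero_iff_norm.2 hx'))
      obtain ⟨j, hj⟩ := List.get_of_mem (show a ∈ L by simp [hL, ha])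
      have hlt' : l * gauge K (‖x‖⁻¹ • x) < dot (‖x‖⁻¹ • x) a := hlt
      rw [gauge_smul_of_nonneg (inv_nonneg.2 (norm_nonneg _)), dot_smul, smul_eq_mul,
        mul_left_comm] at hlt'
      have h1 := lt_of_mul_lt_mul_left hlt' (inv_nonneg.2 (norm_nonneg _))
      have h2 := hmax x j
      rw [show V j = (a : Fin n → ℝ) by rw [hV, ← hj]] at h2
      linarith
  refine ⟨_, V, sel, g, fun j => (L.get j).2, ⟨fun x => le_antisymm ?_ (hmax x _), hmax, ?_,
    l * c, mul_pos hl0 hc, fun x => ?_⟩, hgle, hlow'⟩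
  · exact Finset.sup'_le _ _ fun j _ => hsel' x j
  · refine measurable_to_countable' fun j => ?_
    have : sel ⁻¹' {j} = {x | (∀ k, dot x (V k) ≤ dot x (V j)) ∧
        ∀ i < j, ¬ ∀ k, dot x (V k) ≤ dot x (V i)} := by
      ext x
      rw [mem_preimage, mem_singleton_iff, hsel, mem_ofPred_eq, Fin.find_eq_iff]
    rw [this]
    have hm : ∀ i : Fin L.length, MeasurableSet {x : Fin n → ℝ | ∀ k, dot x (V k) ≤ dot x (V i)} :=
      fun i => by
        rw [ofPred_forall]
        exact MeasurableSet.iInter fun k =>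
          (isClosed_le (continuous_dot_left _) (continuous_dot_left _)).measurableSet
    refine (hm j).inter
      (?_ : MeasurableSet {x : Fin n → ℝ | ∀ i < j, ¬ ∀ k, dot x (V k) ≤ dot x (V i)})
    rw [ofPred_forall]
    refine MeasurableSet.iInter fun i => ?_
    rw [ofPred_forall]
    exact MeasurableSet.iInter fun _ => (hm i).compl
  · rw [mul_assoc]
    exact (mul_le_mul_of_nonneg_left (hlow x) hl0.le).trans (hlow' x)

namespace Poly

section Basic

variable {V : Fin N → Fin n → ℝ} {sel : (Fin n → ℝ) → Fin N} {g : (Fin n → ℝ) → ℝ}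
  (h : Poly V sel g)
include h

lemma measurable_g : Measurable g := by
  have e : g = fun x => ∑ i, x i * V (sel x) i := funext h.attain
  rw [e]
  exact Finset.measurable_sum _ fun i _ =>
    (measurable_pi_apply i).mul ((measurable_of_finite fun j => V j i).comp h.meas)

lemma measurable_comp (i : Fin n) : Measurable fun x => V (sel x) i :=
  (measurable_of_finite fun j => V j i).comp h.meas

lemma integrable_comp (hint : Integrable fun x => exp (-g x)) {f : Fin N → ℝ} :
    Integrable fun x => f (sel x) * exp (-g x) :=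
  hint.bdd_mul (c := ∑ j, |f j|) ((measurable_of_finite f).comp h.meas).aestronglyMeasurable
    (Eventually.of_forall fun x => by
      rw [Real.norm_eq_abs]
      exact Finset.single_le_sum (f := fun j => |f j|) (fun j _ => abs_nonneg _) (Finset.mem_univ _))

lemma integrable_exp {K : Set (Fin n → ℝ)} (hK : Good K) {l : ℝ} (hl : 0 < l)
    (hlow : ∀ x, l * gauge K x ≤ g x) : Integrable fun x => exp (-g x) := by
  refine ((hK.smul (inv_pos.2 hl)).integrableOn_cone).mono
    h.measurable_g.neg.exp.aestronglyMeasurable (Eventually.of_forall fun x => ?_)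
  rw [Real.norm_eq_abs, Real.norm_eq_abs, abs_exp, abs_exp, exp_le_exp,
    hK.gauge_smul_body (inv_pos.2 hl), inv_inv]
  linarith [hlow x]

lemma integral_le {K : Set (Fin n → ℝ)} (hK : Good K) {l : ℝ} (hl : 0 < l)
    (hlow : ∀ x, l * gauge K x ≤ g x) {C : Set (Fin n → ℝ)} (hC : MeasurableSet C)
    (hs : IsDilStable C) :
    ∫ x in C, exp (-g x) ≤ l⁻¹ ^ n * (n.factorial * volume.real (K ∩ C)) := by
  have hK' := hK.smul (inv_pos.2 hl)
  refine (setIntegral_mono (h.integrable_exp hK hl hlow).integrableOn hK'.integrableOn_cone.integrableOn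
    fun x => ?_).trans (le_of_eq ?_)
  · rw [hK.gauge_smul_body (inv_pos.2 hl), inv_inv, exp_le_exp]
    linarith [hlow x]
  · have e : l⁻¹ • K ∩ C = l⁻¹ • (K ∩ C) := by
      ext x
      rw [mem_inter_iff, mem_smul_set_iff_inv_smul_mem₀ (inv_pos.2 hl).ne',
        mem_smul_set_iff_inv_smul_mem₀ (inv_pos.2 hl).ne', mem_inter_iff,
        hs (inv_pos.2 (inv_pos.2 hl))]
    rw [hK'.integral_cone hC hs, e, measureReal_def,
      Measure.addHaar_smul_of_nonneg _ (inv_nonneg.2 hl.le), Module.finrank_pi, Fintype.card_fin,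
      ENNReal.toReal_mul, ENNReal.toReal_ofReal (by positivity), measureReal_def]
    ring

end Basic

variable {V : Fin N → Fin (n + 1) → ℝ} {sel : (Fin (n + 1) → ℝ) → Fin N}
  {g : (Fin (n + 1) → ℝ) → ℝ}

lemma env (h : Poly V sel g) (i : Fin (n + 1)) (y : Fin n → ℝ) :
    ∃ c, Env (fun j => dot (ins i 0 y) (V j)) (fun j => V j i) (fun t => sel (ins i t y))
      (fun t => g (ins i t y)) c := by
  obtain ⟨c, hc, hlow⟩ := h.low
  refine ⟨c, fun t => ?_, fun t j => ?_, ?_, hc, fun t => ?_⟩
  · rw [h.attain, dot_ins]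
  · rw [← dot_ins]; exact h.max _ _
  · refine h.meas.comp (measurable_pi_iff.2 fun j => ?_)
    rcases Fin.eq_self_or_eq_succAbove i j with rfl | ⟨k, rfl⟩
    · simp [measurable_id']
    · simp
  · exact le_trans (mul_le_mul_of_nonneg_left (abs_le_norm_ins i t y) hc.le) (hlow _)

lemma flux (h : Poly V sel g) (hint : Integrable fun x => exp (-g x))
    (s : Fin (n + 1) → Bool) (i : Fin (n + 1)) :
    (if s i then 1 else -1 : ℝ) * ∫ x in orth s, V (sel x) i * exp (-g x) =
      ∫ y in orth (fun j => s (i.succAbove j)), exp (-g (ins i 0 y)) := by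
  rw [← integral_indicator (measurableSet_orth s),
    integral_slices ((h.integrable_comp hint (f := fun j => V j i)).indicator (measurableSet_orth s)) i,
    ← integral_const_mul, ← integral_indicator (measurableSet_orth _)]
  refine integral_congr_ae (Eventually.of_forall fun y => ?_)
  dsimp only
  by_cases hy : y ∈ orth fun j => s (i.succAbove j)
  · rw [indicator_of_mem hy]
    obtain ⟨c, he⟩ := h.env i y
    rcases hs : s i
    · have : (fun t => (orth s).indicator (fun x => V (sel x) i * exp (-g x)) (ins i t y)) =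
          (Iio (0 : ℝ)).indicator fun t => V (sel (ins i t y)) i * exp (-g (ins i t y)) := by
        funext t; simp [indicator, mem_orth_ins, hy, hs]
      rw [this, integral_indicator measurableSet_Iio, ← he.integral_Iio 0]
      simp only [Bool.false_eq_true, if_false, neg_mul, one_mul, integral_neg]
    · have : (fun t => (orth s).indicator (fun x => V (sel x) i * exp (-g x)) (ins i t y)) =
          (Ioi (0 : ℝ)).indicator fun t => V (sel (ins i t y)) i * exp (-g (ins i t y)) := by
        funext t; simp [indicator, mem_orth_ins, hy, hs]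
      rw [this, integral_indicator measurableSet_Ioi, if_pos rfl, one_mul]
      exact he.integral_Ioi 0
  · rw [indicator_of_notMem hy]
    simp [indicator, mem_orth_ins, hy]

lemma two_flux (h : Poly V sel g) (hint : Integrable fun x => exp (-g x)) (i : Fin (n + 1))
    {u : (Fin n → ℝ) → ℝ} (hu : Integrable fun y => exp (-u y))
    (hle : ∀ y, ∃ t, g (ins i t y) ≤ u y) :
    2 * ∫ y, exp (-u y) ≤ ∫ x, |V (sel x) i| * exp (-g x) := by
  have hi := h.integrable_comp hint (f := fun j => |V j i|)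
  rw [integral_slices hi i, ← integral_const_mul]
  refine integral_mono (hu.const_mul 2) ?_ fun y => ?_
  · have h' := (volume_preserving_piFinSuccAbove (fun _ : Fin (n + 1) => ℝ) i).symm
    have h'' := (h'.integrable_comp_emb (MeasurableEquiv.measurableEmbedding _)).2 hi
    rw [Measure.volume_eq_prod] at h''
    exact h''.integral_prod_right
  · obtain ⟨t, ht⟩ := hle y
    obtain ⟨c, he⟩ := h.env i y
    refine le_trans ?_ (he.two_le t)
    have := exp_le_exp.2 (neg_le_neg ht)
    linarith

end Poly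

end Vale.Agent.P248
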